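import Mathlib

/-! P047: Boolean functions on the cube. -/

namespace P047

open Finset

variable {n : ℕ}

/-- the sign of a bit -/
def sgn (b : Bool) : ℝ := if b then 1 else -1

/-- the character of `S` -/
def chi (S : Finset (Fin n)) (x : Fin n → Bool) : ℝ := ∏ i ∈ S, sgn (x i)

/-- Fourier coefficient -/
noncomputable def fhat (f : (Fin n → Bool) → ℝ) (S : Finset (Fin n)) : ℝ :=
  (∑ x, f x * chi S x) / 2 ^ n

/-- `f` takes the values `1` and `-1` only -/
def IsBoolean (f : (Fin n → Bool) → ℝ) : Prop := ∀ x, f x = 1 ∨ f x = -1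

/-- degree at most `d` -/
def DegLE (f : (Fin n → Bool) → ℝ) (d : ℕ) : Prop := ∀ S : Finset (Fin n), d < S.card → fhat f S = 0

/-- the polynomial `t ↦ E_t f` -/
noncomputable def G (f : (Fin n → Bool) → ℝ) : Polynomial ℝ :=
  ∑ S : Finset (Fin n), Polynomial.C (fhat f S) * Polynomial.X ^ S.card

/-- nodes -/
noncomputable def th (d k : ℕ) : ℝ := (2 * k + 1) * Real.pi / (2 * d)

/-- weights -/
noncomputable def wt (d k : ℕ) : ℝ := 1 / (4 * d * Real.sin (th d k / 2) ^ 2)

end P047
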