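import Mathlib
import Vale.Agent.P047.Defs

namespace P047

open Finset

variable {n : ℕ}

lemma sgn_sq (b : Bool) : sgn b * sgn b = 1 := by cases b <;> simp [sgn]
lemma sgn_not (b : Bool) : sgn (!b) = - sgn b := by cases b <;> simp [sgn]
lemma sgn_abs (b : Bool) : |sgn b| = 1 := by cases b <;> simp [sgn]

lemma sum_chi_chi (x y : Fin n → Bool) :
    ∑ S : Finset (Fin n), chi S x * chi S y = if x = y then 2 ^ n else 0 := by
  have h1 : ∑ S : Finset (Fin n), chi S x * chi S y = ∏ i, (1 + sgn (x i) * sgn (y i)) := by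
    rw [Finset.prod_one_add, Finset.powerset_univ]
    exact Finset.sum_congr rfl fun S _ => by rw [chi, chi, Finset.prod_mul_distrib]
  rw [h1]
  split_ifs with h
  · subst h
    rw [Finset.prod_congr rfl fun i _ => by rw [sgn_sq]]
    norm_num
  · obtain ⟨i, hi⟩ := Function.ne_iff.1 h
    apply Finset.prod_eq_zero (Finset.mem_univ i)
    revert hi
    cases x i <;> cases y i <;> simp [sgn]

theorem expand (f : (Fin n → Bool) → ℝ) (x : Fin n → Bool) :
    f x = ∑ S : Finset (Fin n), fhat f S * chi S x := by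
  have h2 : (2 : ℝ) ^ n ≠ 0 := by positivity
  have h1 : ∑ S : Finset (Fin n), fhat f S * chi S x
      = (∑ y, f y * ∑ S : Finset (Fin n), chi S y * chi S x) / 2 ^ n := by
    rw [Finset.sum_div]
    simp only [fhat, Finset.mul_sum, Finset.sum_div, Finset.sum_mul]
    rw [Finset.sum_comm]
    refine Finset.sum_congr rfl fun y _ => Finset.sum_congr rfl fun S _ => by ring
  rw [h1]
  simp only [sum_chi_chi]
  simp

lemma sum_chi_mul (S T : Finset (Fin n)) :
    ∑ x : Fin n → Bool, chi S x * chi T x = if S = T then 2 ^ n else 0 := by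
  have h0 : ∀ x : Fin n → Bool, chi S x * chi T x
      = ∏ i, ((if i ∈ S then sgn (x i) else 1) * (if i ∈ T then sgn (x i) else 1)) := by
    intro x
    rw [Finset.prod_mul_distrib, chi, chi, Finset.prod_ite_mem, Finset.prod_ite_mem,
      Finset.univ_inter, Finset.univ_inter]
  have h1 : ∑ x : Fin n → Bool, chi S x * chi T x
      = ∏ i, ∑ b : Bool, ((if i ∈ S then sgn b else 1) * (if i ∈ T then sgn b else 1)) := by
    rw [Finset.prod_univ_sum, Fintype.piFinset_univ]
    exact Finset.sum_congr rfl fun x _ => h0 x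
  rw [h1]
  split_ifs with h
  · subst h
    have : ∀ i : Fin n, ∑ b : Bool, ((if i ∈ S then sgn b else 1) * (if i ∈ S then sgn b else 1))
        = (2 : ℝ) := by
      intro i
      by_cases hi : i ∈ S <;> simp [hi, sgn] <;> norm_num
    rw [Finset.prod_congr rfl fun i _ => this i]
    simp
  · have : ∃ i, ¬ (i ∈ S ↔ i ∈ T) := by
      by_contra hcon
      push Not at hcon
      exact h (Finset.ext hcon)
    obtain ⟨i, hi⟩ := this
    apply Finset.prod_eq_zero (Finset.mem_univ i)
    by_cases h1 : i ∈ S <;> by_cases h2 : i ∈ T <;> simp [h1, h2, sgn] at hi ⊢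

/-- uniqueness of the coefficients -/
theorem fhat_of_expand (f : (Fin n → Bool) → ℝ) (c : Finset (Fin n) → ℝ)
    (h : ∀ x, f x = ∑ S : Finset (Fin n), c S * chi S x) (S : Finset (Fin n)) :
    fhat f S = c S := by
  have h2 : (2 : ℝ) ^ n ≠ 0 := by positivity
  have h1 : ∑ x, f x * chi S x = ∑ T : Finset (Fin n), c T * ∑ x, chi T x * chi S x := by
    simp only [h, Finset.sum_mul, Finset.mul_sum]
    rw [Finset.sum_comm]
    refine Finset.sum_congr rfl fun T _ => Finset.sum_congr rfl fun x _ => by ring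
  rw [fhat, h1]
  simp only [sum_chi_mul]
  simp

theorem parseval (f : (Fin n → Bool) → ℝ) :
    ∑ S : Finset (Fin n), fhat f S ^ 2 = (∑ x, f x ^ 2) / 2 ^ n := by
  have h2 : (2 : ℝ) ^ n ≠ 0 := by positivity
  rw [eq_div_iff h2]
  have h1 : ∑ x, f x ^ 2 = ∑ x, f x * ∑ S : Finset (Fin n), fhat f S * chi S x :=
    Finset.sum_congr rfl fun x _ => by rw [← expand, sq]
  rw [h1]
  simp only [Finset.mul_sum]
  rw [Finset.sum_comm, Finset.sum_mul]
  refine Finset.sum_congr rfl fun S _ => ?_
  have h3 : ∑ x, f x * chi S x = fhat f S * 2 ^ n := by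
    rw [fhat]; field_simp
  calc fhat f S ^ 2 * 2 ^ n = fhat f S * ∑ x, f x * chi S x := by rw [h3]; ring
    _ = ∑ x, f x * (fhat f S * chi S x) := by
      rw [Finset.mul_sum]
      exact Finset.sum_congr rfl fun x _ => by ring

/-- flipping a coordinate -/
def flip (i : Fin n) (x : Fin n → Bool) : Fin n → Bool := Function.update x i (!x i)

lemma chi_flip (S : Finset (Fin n)) (i : Fin n) (x : Fin n → Bool) :
    chi S (flip i x) = if i ∈ S then - chi S x else chi S x := by
  unfold chi flip
  split_ifs with h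
  · rw [← Finset.mul_prod_erase S _ h, ← Finset.mul_prod_erase S (fun j => sgn (x j)) h]
    rw [Function.update_self, sgn_not, neg_mul]
    congr 2
    refine Finset.prod_congr rfl fun j hj => ?_
    rw [Function.update_of_ne (Finset.ne_of_mem_erase hj)]
  · refine Finset.prod_congr rfl fun j hj => ?_
    rw [Function.update_of_ne]
    rintro rfl
    exact h hj

lemma coord_le {f : (Fin n → Bool) → ℝ} (hf : IsBoolean f) (i : Fin n) :
    fhat f {i} ≤ ∑ S : Finset (Fin n), if i ∈ S then fhat f S ^ 2 else 0 := by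
  set h : (Fin n → Bool) → ℝ := fun x => (f x - f (flip i x)) / 2 with hh
  have hexp : ∀ S, fhat h S = if i ∈ S then fhat f S else 0 := by
    apply fhat_of_expand
    intro x
    have e1 := expand f x
    have e2 := expand f (flip i x)
    have : h x = (∑ S : Finset (Fin n), fhat f S * chi S x
        - ∑ S : Finset (Fin n), fhat f S * chi S (flip i x)) / 2 := by
      rw [← e1, ← e2]
    rw [this, ← Finset.sum_sub_distrib, Finset.sum_div]
    refine Finset.sum_congr rfl fun S _ => ?_
    rw [chi_flip]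
    split_ifs <;> ring
  have h1 : fhat f {i} = fhat h {i} := by rw [hexp]; simp
  have h2 : fhat h {i} ≤ (∑ x, h x ^ 2) / 2 ^ n := by
    rw [fhat]
    apply div_le_div_of_nonneg_right _ (by positivity)
    apply Finset.sum_le_sum
    intro x _
    have : chi {i} x = sgn (x i) := by simp [chi]
    rw [this]
    have hx : h x = 1 ∨ h x = 0 ∨ h x = -1 := by
      simp only [hh]
      rcases hf x with a | a <;> rcases hf (flip i x) with b | b <;> rw [a, b] <;> norm_num
    rcases hx with a | a | a <;> rw [a] <;> cases x i <;> norm_num [sgn]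
  rw [h1]
  refine h2.trans (le_of_eq ?_)
  rw [← parseval]
  refine Finset.sum_congr rfl fun S _ => ?_
  rw [hexp]
  split_ifs <;> simp

/-- `∑ fhat({i}) ≤ I(f) ≤ d Var f` -/
theorem level_one_le {f : (Fin n → Bool) → ℝ} (hf : IsBoolean f) {d : ℕ} (hd : DegLE f d) :
    ∑ i, fhat f {i} ≤ d * (1 - fhat f ∅ ^ 2) := by
  have h1 : ∑ i, fhat f {i} ≤ ∑ i : Fin n, ∑ S : Finset (Fin n),
      if i ∈ S then fhat f S ^ 2 else 0 := Finset.sum_le_sum fun i _ => coord_le hf i
  refine h1.trans ?_
  rw [Finset.sum_comm]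
  have hp : ∑ S : Finset (Fin n), fhat f S ^ 2 = 1 := by
    rw [parseval]
    have : ∀ x, f x ^ 2 = 1 := by
      intro x
      rcases hf x with a | a <;> rw [a] <;> norm_num
    simp [this]
  have h2 : ∑ S : Finset (Fin n), (∑ i : Fin n, if i ∈ S then fhat f S ^ 2 else 0)
      ≤ ∑ S : Finset (Fin n), d * (fhat f S ^ 2 - if S = ∅ then fhat f ∅ ^ 2 else 0) := by
    apply Finset.sum_le_sum
    intro S _
    rw [Finset.sum_ite_mem, Finset.univ_inter, Finset.sum_const, nsmul_eq_mul]
    by_cases hS : S = ∅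
    · subst hS; simp
    · simp only [hS, if_false, sub_zero]
      rcases Nat.lt_or_ge d S.card with h3 | h3
      · rw [hd S h3]; simp
      · have : (S.card : ℝ) ≤ d := by exact_mod_cast h3
        exact mul_le_mul_of_nonneg_right this (sq_nonneg _)
  refine h2.trans (le_of_eq ?_)
  rw [← Finset.mul_sum, Finset.sum_sub_distrib, hp]
  simp

end P047
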