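import Mathlib
import Vale.Agent.P047.Fourier

namespace P047

open Finset

variable {n m : ℕ}

/-- the `i`-th block -/
def blk (i : Fin n) (x : Fin (n * m) → Bool) : Fin m → Bool := fun j => x (finProdFinEquiv (i, j))

/-- composition of Boolean functions on disjoint blocks of variables -/
noncomputable def comp (f : (Fin n → Bool) → ℝ) (h : Fin n → (Fin m → Bool) → ℝ)
    (x : Fin (n * m) → Bool) : ℝ := by
  classical
  exact f (fun i => decide (h i (blk i x) = 1))

/-- trace of `T` on the `i`-th block -/
def blkSet (T : Finset (Fin (n * m))) (i : Fin n) : Finset (Fin m) :=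
  univ.filter (fun j => finProdFinEquiv (i, j) ∈ T)

theorem comp_bool {f : (Fin n → Bool) → ℝ} (hf : IsBoolean f) (h : Fin n → (Fin m → Bool) → ℝ) :
    IsBoolean (comp f h) := fun _ => hf _

theorem chi_blk (T : Finset (Fin (n * m))) (x : Fin (n * m) → Bool) :
    chi T x = ∏ i : Fin n, chi (blkSet T i) (blk i x) := by
  have h1 : chi T x = ∏ k : Fin (n * m), (if k ∈ T then sgn (x k) else 1) := by
    rw [Finset.prod_ite_mem, Finset.univ_inter]
    rfl
  rw [h1, ← Equiv.prod_comp finProdFinEquiv, Fintype.prod_prod_type]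
  apply Finset.prod_congr rfl
  intro i _
  rw [chi, blkSet, Finset.prod_filter]
  rfl

theorem sum_blk (F : Fin n → (Fin m → Bool) → ℝ) :
    ∑ x : Fin (n * m) → Bool, ∏ i, F i (blk i x) = ∏ i, ∑ y, F i y := by
  rw [Finset.prod_univ_sum, Fintype.piFinset_univ]
  let e : (Fin (n * m) → Bool) ≃ (Fin n → Fin m → Bool) :=
    ((Equiv.arrowCongr finProdFinEquiv (Equiv.refl Bool)).symm).trans
      (Equiv.curry (Fin n) (Fin m) Bool)
  have he : ∀ x i, e x i = blk i x := fun x i => rfl
  rw [← Equiv.sum_comp e]
  apply Finset.sum_congr rfl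
  intro x _
  apply Finset.prod_congr rfl
  intro i _
  rw [he]

theorem chi_dec {S : Finset (Fin n)} {h : Fin n → (Fin m → Bool) → ℝ}
    (hh : ∀ i, IsBoolean (h i)) (x : Fin (n * m) → Bool) (b : Fin n → Bool)
    (hb : ∀ i, b i = true ↔ h i (blk i x) = 1) :
    chi S b = ∏ i, (if i ∈ S then h i (blk i x) else 1) := by
  rw [Finset.prod_ite_mem, Finset.univ_inter, chi]
  apply Finset.prod_congr rfl
  intro i _
  rcases hh i (blk i x) with h1 | h1
  · have : b i = true := (hb i).mpr h1
    rw [this, h1]
    simp [sgn]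
  · have : b i = false := by
      by_contra hcon
      have hcon' : b i = true := by simpa using hcon
      have := (hb i).mp hcon'
      rw [h1] at this
      norm_num at this
    rw [this, h1]
    simp [sgn]

/-- Fourier coefficients of a composition: expand `f`, `sgn (decide (h i y = 1)) = h i y`,
`chi T x = ∏ i, chi (blkSet T i) (blk i x)`, and the sum over `x` factorizes over the blocks. -/
theorem fhat_comp (f : (Fin n → Bool) → ℝ) (h : Fin n → (Fin m → Bool) → ℝ)
    (hh : ∀ i, IsBoolean (h i)) (T : Finset (Fin (n * m))) :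
    fhat (comp f h) T = ∑ S : Finset (Fin n), fhat f S *
      ∏ i, (if i ∈ S then fhat (h i) (blkSet T i) else if blkSet T i = ∅ then 1 else 0) := by
  classical
  have h2 : (2 : ℝ) ^ (n * m) = ∏ _i : Fin n, (2 : ℝ) ^ m := by
    rw [Finset.prod_const, Finset.card_univ, Fintype.card_fin, ← pow_mul, mul_comm]
  have hcomp : ∀ x : Fin (n * m) → Bool, comp f h x
      = ∑ S : Finset (Fin n), fhat f S * ∏ i, (if i ∈ S then h i (blk i x) else 1) := by
    intro x
    unfold comp
    rw [expand f]
    apply Finset.sum_congr rfl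
    intro S _
    rw [chi_dec hh x _ (fun i => by simp)]
  have hfac : ∀ S : Finset (Fin n),
      (∑ x : Fin (n * m) → Bool, (∏ i, (if i ∈ S then h i (blk i x) else 1)) * chi T x)
        / 2 ^ (n * m)
      = ∏ i, (if i ∈ S then fhat (h i) (blkSet T i) else if blkSet T i = ∅ then 1 else 0) := by
    intro S
    have e1 : ∀ x : Fin (n * m) → Bool,
        (∏ i, (if i ∈ S then h i (blk i x) else 1)) * chi T x
        = ∏ i, (fun (i : Fin n) (y : Fin m → Bool) =>
          (if i ∈ S then h i y else 1) * chi (blkSet T i) y) i (blk i x) := by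
      intro x
      rw [chi_blk, ← Finset.prod_mul_distrib]
    rw [Finset.sum_congr rfl (fun x _ => e1 x),
      sum_blk (fun (i : Fin n) (y : Fin m → Bool) =>
        (if i ∈ S then h i y else 1) * chi (blkSet T i) y), h2, ← Finset.prod_div_distrib]
    apply Finset.prod_congr rfl
    intro i _
    by_cases hi : i ∈ S
    · simp [hi, fhat]
    · simp only [hi, if_false, one_mul]
      have h3 := sum_chi_mul (n := m) ∅ (blkSet T i)
      have h4 : ∀ y : Fin m → Bool, chi ∅ y * chi (blkSet T i) y = chi (blkSet T i) y := by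
        intro y
        simp [chi]
      rw [Finset.sum_congr rfl (fun y _ => h4 y)] at h3
      rw [h3]
      by_cases hT : blkSet T i = ∅
      · simp [hT]
      · have hT' : ¬ ∅ = blkSet T i := fun h => hT h.symm
        simp [hT, hT']
  unfold fhat
  have e2 : ∑ x : Fin (n * m) → Bool, comp f h x * chi T x
      = ∑ S : Finset (Fin n), fhat f S *
        ∑ x : Fin (n * m) → Bool, (∏ i, (if i ∈ S then h i (blk i x) else 1)) * chi T x := by
    simp_rw [Finset.mul_sum]
    rw [Finset.sum_comm]
    apply Finset.sum_congr rfl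
    intro x _
    rw [hcomp x, Finset.sum_mul]
    apply Finset.sum_congr rfl
    intro S _
    ring
  rw [e2, Finset.sum_div]
  apply Finset.sum_congr rfl
  intro S _
  rw [mul_div_assoc, hfac S]
  rfl

end P047
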