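import Mathlib
import Vale.Agent.P047.Comp

namespace P047

open Finset

variable {n m : ℕ}

theorem card_blk (T : Finset (Fin (n * m))) : T.card = ∑ i : Fin n, (blkSet T i).card := by
  have h1 : T.card = ∑ k : Fin (n * m), (if k ∈ T then 1 else 0) := by
    rw [Finset.sum_ite_mem, Finset.univ_inter, Finset.sum_const, smul_eq_mul, mul_one]
  rw [h1, ← Equiv.sum_comp finProdFinEquiv, Fintype.sum_prod_type]
  apply Finset.sum_congr rfl
  intro i _
  rw [blkSet, Finset.card_filter]

theorem comp_deg {f : (Fin n → Bool) → ℝ} {h : Fin n → (Fin m → Bool) → ℝ} {d1 d2 : ℕ}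
    (hf : DegLE f d1) (hh : ∀ i, IsBoolean (h i)) (hd : ∀ i, DegLE (h i) d2) :
    DegLE (comp f h) (d1 * d2) := by
  intro T hT
  rw [fhat_comp f h hh T]
  apply Finset.sum_eq_zero
  intro S _
  by_contra hne
  have hfS : fhat f S ≠ 0 := left_ne_zero_of_mul hne
  have hprod := right_ne_zero_of_mul hne
  rw [Finset.prod_ne_zero_iff] at hprod
  have hS : S.card ≤ d1 := by
    by_contra hcon
    exact hfS (hf S (not_le.mp hcon))
  have hle : ∀ i : Fin n, (blkSet T i).card ≤ if i ∈ S then d2 else 0 := by
    intro i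
    have := hprod i (Finset.mem_univ i)
    by_cases hi : i ∈ S
    · rw [if_pos hi] at this ⊢
      by_contra hcon
      exact this (hd i _ (not_le.mp hcon))
    · rw [if_neg hi] at this ⊢
      by_cases hb : blkSet T i = ∅
      · simp [hb]
      · rw [if_neg hb] at this
        exact absurd rfl this
  have hcard : T.card ≤ S.card * d2 := by
    rw [card_blk]
    calc ∑ i : Fin n, (blkSet T i).card ≤ ∑ i : Fin n, (if i ∈ S then d2 else 0) :=
          Finset.sum_le_sum (fun i _ => hle i)
      _ = S.card * d2 := by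
          rw [Finset.sum_ite_mem, Finset.univ_inter, Finset.sum_const, smul_eq_mul]
  have : S.card * d2 ≤ d1 * d2 := Nat.mul_le_mul_right d2 hS
  omega

theorem blk_single (i : Fin n) (j : Fin m) (i' : Fin n) :
    blkSet ({finProdFinEquiv (i, j)} : Finset (Fin (n * m))) i' = if i' = i then {j} else ∅ := by
  ext j'
  by_cases hi : i' = i
  · subst hi
    simp [blkSet]
  · simp [blkSet, hi]

theorem comp_single (f : (Fin n → Bool) → ℝ) (h : Fin n → (Fin m → Bool) → ℝ)
    (hh : ∀ i, IsBoolean (h i)) (i : Fin n) (j : Fin m) :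
    fhat (comp f h) {finProdFinEquiv (i, j)}
      = (∑ S ∈ univ.filter (fun S : Finset (Fin n) => i ∈ S),
      fhat f S * ∏ j ∈ S.erase i, fhat (h j) ∅) * fhat (h i) {j} := by
  rw [fhat_comp f h hh, Finset.sum_filter, Finset.sum_mul]
  apply Finset.sum_congr rfl
  intro S _
  by_cases hi : i ∈ S
  · rw [if_pos hi, mul_assoc]
    congr 1
    rw [← Finset.mul_prod_erase Finset.univ _ (Finset.mem_univ i), blk_single]
    rw [if_pos hi, if_pos rfl, mul_comm]
    congr 1
    have e1 : ∀ i' ∈ Finset.univ.erase i,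
        (if i' ∈ S then fhat (h i') (blkSet ({finProdFinEquiv (i, j)} : Finset (Fin (n * m))) i')
          else if blkSet ({finProdFinEquiv (i, j)} : Finset (Fin (n * m))) i' = ∅ then 1 else 0)
        = if i' ∈ S then fhat (h i') ∅ else 1 := by
      intro i' hi'
      have hne : i' ≠ i := Finset.ne_of_mem_erase hi'
      rw [blk_single, if_neg hne]
      simp
    rw [Finset.prod_congr rfl e1, Finset.prod_ite_mem]
    congr 1
    ext x
    simp [and_comm]
  · rw [if_neg hi, zero_mul]
    apply mul_eq_zero_of_right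
    apply Finset.prod_eq_zero (Finset.mem_univ i)
    rw [if_neg hi, blk_single, if_pos rfl]
    simp

theorem comp_level_one (f : (Fin n → Bool) → ℝ) (h : Fin n → (Fin m → Bool) → ℝ)
    (hh : ∀ i, IsBoolean (h i)) :
    ∑ k, fhat (comp f h) {k} = ∑ i, (∑ S ∈ univ.filter (fun S : Finset (Fin n) => i ∈ S),
      fhat f S * ∏ j ∈ S.erase i, fhat (h j) ∅) * ∑ j, fhat (h i) {j} := by
  rw [← Equiv.sum_comp finProdFinEquiv, Fintype.sum_prod_type]
  apply Finset.sum_congr rfl
  intro i _
  rw [Finset.mul_sum]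
  apply Finset.sum_congr rfl
  intro j _
  exact comp_single f h hh i j

end P047
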