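import Mathlib
import Vale.Agent.P047.Defs

namespace P047

open Finset Polynomial

theorem alg_bound {A B r : ℝ} (hA : |A| < 1) (hB : |B| < 1) (hr : 0 < r) (h2 : r ≤ 1)
    (h : (1 + A) * (1 - B) * r ^ 2 ≤ (1 - A) * (1 + B)) :
    A - B ≤ 2 - 4 * r / (1 + r) := by
  have hA' := abs_lt.1 hA
  have hB' := abs_lt.1 hB
  have h1 : 2 - 4 * r / (1 + r) = 2 * (1 - r) / (1 + r) := by
    have : 1 + r ≠ 0 := by positivity
    field_simp
    ring
  rw [h1, le_div_iff₀ (by positivity)]
  by_contra hcon
  rw [not_le] at hcon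
  -- x = (A - B) / 2
  have f1 : 0 < (A - B) / 2 * (1 + r) - (1 - r) := by linarith
  have f2 : (A - B) / 2 * (1 - r) - (1 + r) < 0 := by
    have g1 : (A - B) / 2 < 1 := by linarith [hA'.2, hB'.1]
    nlinarith
  have f3 : ((A - B) / 2 * (1 - r) - (1 + r)) * ((A - B) / 2 * (1 + r) - (1 - r)) < 0 :=
    mul_neg_of_neg_of_pos f2 f1
  have e : 0 ≤ (A + B) ^ 2 * (1 - r ^ 2) :=
    mul_nonneg (sq_nonneg _) (by nlinarith)
  nlinarith

theorem ode_bound (d : ℕ) (p : ℝ[X]) (hb : ∀ t : ℝ, -1 < t → t < 1 → |p.eval t| < 1)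
    (h1 : ∀ t : ℝ, 0 ≤ t → t ≤ 1 → (1 - t) * (derivative p).eval t ≤ d * (1 - p.eval t ^ 2))
    (h2 : ∀ t : ℝ, 0 ≤ t → t ≤ 1 → (1 - t) * (derivative p).eval (-t) ≤ d * (1 - p.eval (-t) ^ 2))
    (t : ℝ) (ht0 : 0 ≤ t) (ht1 : t < 1) :
    p.eval t - p.eval (-t) ≤ 2 - 4 * (1 - t) ^ (2 * d) / (1 + (1 - t) ^ (2 * d)) := by
  have hpos : ∀ s : ℝ, -1 < s → s < 1 → 0 < 1 + p.eval s ∧ 0 < 1 - p.eval s := by
    intro s a1 a2
    have := abs_lt.1 (hb s a1 a2)
    constructor <;> linarith [this.1, this.2]
  have hder : ∀ s ∈ Set.Icc (0 : ℝ) t, HasDerivAt (fun s : ℝ =>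
      Real.log (1 + p.eval s) - Real.log (1 - p.eval s) + Real.log (1 - p.eval (-s))
        - Real.log (1 + p.eval (-s)) + 4 * d * Real.log (1 - s))
      ((derivative p).eval s / (1 + p.eval s) - (-(derivative p).eval s) / (1 - p.eval s)
        + (derivative p).eval (-s) / (1 - p.eval (-s))
        - (-(derivative p).eval (-s)) / (1 + p.eval (-s)) + 4 * d * (-1 / (1 - s))) s := by
    intro s hs
    have a1 : -1 < s := by linarith [hs.1]
    have a2 : s < 1 := lt_of_le_of_lt hs.2 ht1
    have b1 : -1 < -s := by linarith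
    have b2 : -s < 1 := by linarith
    have hp := p.hasDerivAt s
    have hn : HasDerivAt (fun s : ℝ => p.eval (-s)) (-(derivative p).eval (-s)) s := by
      have := (p.hasDerivAt (-s)).comp s (hasDerivAt_neg s)
      simpa [Function.comp_def] using this
    have c1 := (hp.const_add 1).log (hpos s a1 a2).1.ne'
    have c2 := (hp.const_sub 1).log (hpos s a1 a2).2.ne'
    have c3 := (hn.const_sub 1).log (hpos (-s) b1 b2).2.ne'
    have c4 := (hn.const_add 1).log (hpos (-s) b1 b2).1.ne'
    have c5 := (((hasDerivAt_id s).const_sub 1).log (by simp; linarith : (1 : ℝ) - id s ≠ 0)).const_mul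
      (4 * (d : ℝ))
    have := (((c1.sub c2).add c3).sub c4).add c5
    refine HasDerivAt.congr_deriv (f := fun s : ℝ =>
      Real.log (1 + p.eval s) - Real.log (1 - p.eval s) + Real.log (1 - p.eval (-s))
        - Real.log (1 + p.eval (-s)) + 4 * d * Real.log (1 - s)) this ?_
    simp only [neg_neg, id]
  have hanti : AntitoneOn (fun s : ℝ =>
      Real.log (1 + p.eval s) - Real.log (1 - p.eval s) + Real.log (1 - p.eval (-s))
        - Real.log (1 + p.eval (-s)) + 4 * d * Real.log (1 - s)) (Set.Icc 0 t) := by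
    apply antitoneOn_of_deriv_nonpos (convex_Icc 0 t)
    · intro s hs
      exact (hder s hs).continuousAt.continuousWithinAt
    · intro s hs
      exact (hder s (interior_subset hs)).differentiableAt.differentiableWithinAt
    · intro s hs
      have hs' := interior_subset hs
      rw [(hder s hs').deriv]
      have a1 : -1 < s := by linarith [hs'.1]
      have a2 : s < 1 := lt_of_le_of_lt hs'.2 ht1
      have b1 : -1 < -s := by linarith
      have b2 : -s < 1 := by linarith
      have u1 := hpos s a1 a2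
      have u2 := hpos (-s) b1 b2
      have k1 : (derivative p).eval s / (1 + p.eval s) - (-(derivative p).eval s) / (1 - p.eval s)
          ≤ 2 * d / (1 - s) := by
        have e : (derivative p).eval s / (1 + p.eval s) - (-(derivative p).eval s) / (1 - p.eval s)
            = 2 * (derivative p).eval s / (1 - p.eval s ^ 2) := by
          have e1 := u1.1.ne'
          have e2 := u1.2.ne'
          have e3 : 1 - p.eval s ^ 2 ≠ 0 := by
            have : 1 - p.eval s ^ 2 = (1 + p.eval s) * (1 - p.eval s) := by ring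
            rw [this]; exact mul_ne_zero e1 e2
          field_simp
          ring
        have e3 : 0 < 1 - p.eval s ^ 2 := by nlinarith [mul_pos u1.1 u1.2]
        rw [e, div_le_div_iff₀ e3 (by linarith)]
        have := h1 s hs'.1 a2.le
        nlinarith
      have k2 : (derivative p).eval (-s) / (1 - p.eval (-s))
          - (-(derivative p).eval (-s)) / (1 + p.eval (-s)) ≤ 2 * d / (1 - s) := by
        have e : (derivative p).eval (-s) / (1 - p.eval (-s))
          - (-(derivative p).eval (-s)) / (1 + p.eval (-s))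
            = 2 * (derivative p).eval (-s) / (1 - p.eval (-s) ^ 2) := by
          have e1 := u2.1.ne'
          have e2 := u2.2.ne'
          have e3 : 1 - p.eval (-s) ^ 2 ≠ 0 := by
            have : 1 - p.eval (-s) ^ 2 = (1 + p.eval (-s)) * (1 - p.eval (-s)) := by ring
            rw [this]; exact mul_ne_zero e1 e2
          field_simp
          ring
        have e3 : 0 < 1 - p.eval (-s) ^ 2 := by nlinarith [mul_pos u2.1 u2.2]
        rw [e, div_le_div_iff₀ e3 (by linarith)]
        have := h2 s hs'.1 a2.le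
        nlinarith
      have k3 : 4 * (d : ℝ) * (-1 / (1 - s)) = - (2 * d / (1 - s)) - (2 * d / (1 - s)) := by ring
      rw [k3]
      linarith
  have hle := hanti (Set.left_mem_Icc.2 ht0) (Set.right_mem_Icc.2 ht0) ht0
  simp only [neg_zero, sub_zero, Real.log_one, mul_zero, add_zero] at hle
  have a1 : -1 < t := by linarith
  have b1 : -1 < -t := by linarith
  have b2 : -t < 1 := by linarith
  have u1 := hpos t a1 ht1
  have u2 := hpos (-t) b1 b2
  have hr : 0 < (1 - t) ^ (2 * d) := pow_pos (by linarith) _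
  have hr1 : (1 - t) ^ (2 * d) ≤ 1 := pow_le_one₀ (by linarith) (by linarith)
  refine alg_bound (hb t a1 ht1) (hb (-t) b1 b2) hr hr1 ?_
  rw [← Real.log_le_log_iff (mul_pos (mul_pos u1.1 u2.2) (pow_pos hr 2)) (mul_pos u1.2 u2.1),
    Real.log_mul (mul_pos u1.1 u2.2).ne' (pow_pos hr 2).ne', Real.log_mul u1.1.ne' u2.2.ne',
    Real.log_mul u1.2.ne' u2.1.ne', Real.log_pow, Real.log_pow]
  push_cast
  linarith

end P047
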