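import Mathlib
import Vale.Agent.P047.Fourier

namespace P047

open Finset Polynomial

variable {n : ℕ}

theorem G_eval_sum (f : (Fin n → Bool) → ℝ) (t : ℝ) :
    (G f).eval t = ∑ S : Finset (Fin n), fhat f S * t ^ S.card := by
  simp [G, eval_finsetSum]

/-- product formula for `E_t f` -/
theorem G_eval (f : (Fin n → Bool) → ℝ) (t : ℝ) :
    (G f).eval t = ∑ x, f x * ∏ i, ((1 + sgn (x i) * t) / 2) := by
  rw [G_eval_sum]
  have h1 : ∀ x : Fin n → Bool, ∏ i, ((1 + sgn (x i) * t) / 2)
      = (∑ S : Finset (Fin n), chi S x * t ^ S.card) / 2 ^ n := by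
    intro x
    rw [Finset.prod_div_distrib, Finset.prod_const, Finset.card_univ, Fintype.card_fin,
      Finset.prod_one_add, Finset.powerset_univ]
    congr 1
    apply Finset.sum_congr rfl
    intro S _
    rw [Finset.prod_mul_distrib, Finset.prod_const, chi]
  simp_rw [h1, fhat]
  calc ∑ S : Finset (Fin n), (∑ x, f x * chi S x) / 2 ^ n * t ^ S.card
      = ∑ S : Finset (Fin n), ∑ x, f x * chi S x / 2 ^ n * t ^ S.card := by
        apply Finset.sum_congr rfl
        intro S _
        rw [Finset.sum_div, Finset.sum_mul]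
    _ = ∑ x, ∑ S : Finset (Fin n), f x * chi S x / 2 ^ n * t ^ S.card := Finset.sum_comm
    _ = ∑ x, f x * ((∑ S : Finset (Fin n), chi S x * t ^ S.card) / 2 ^ n) := by
        apply Finset.sum_congr rfl
        intro x _
        rw [Finset.sum_div, Finset.mul_sum]
        apply Finset.sum_congr rfl
        intro S _
        ring

/-- weight of `J` -/
noncomputable def pw (t : ℝ) (J : Finset (Fin n)) : ℝ :=
  (∏ _i ∈ J, t) * ∏ _i ∈ univ \ J, (1 - t)

theorem sum_prod (a b : Fin n → ℝ) :
    ∑ J : Finset (Fin n), (∏ i ∈ J, a i) * ∏ i ∈ univ \ J, b i = ∏ i, (a i + b i) := by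
  rw [Finset.prod_add, Finset.powerset_univ]

theorem pw_nonneg {t : ℝ} (h0 : 0 ≤ t) (h1 : t ≤ 1) (J : Finset (Fin n)) : 0 ≤ pw t J := by
  unfold pw
  have : 0 ≤ 1 - t := by linarith
  positivity

theorem sum_pw (t : ℝ) : ∑ J : Finset (Fin n), pw t J = 1 := by
  unfold pw
  rw [sum_prod (fun _ => t) (fun _ => 1 - t)]
  simp

theorem prob_eq (t : ℝ) (T S : Finset (Fin n)) (hST : S ⊆ T) :
    ∑ J : Finset (Fin n), (if T \ J = S then pw t J else 0)
      = (1 - t) ^ S.card * t ^ (T \ S).card := by
  have h1 : ∀ J : Finset (Fin n), (if T \ J = S then pw t J else 0)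
      = (∏ i ∈ J, (if i ∈ S then 0 else t)) *
        ∏ i ∈ univ \ J, (if i ∈ T \ S then 0 else 1 - t) := by
    intro J
    split_ifs with h
    · unfold pw
      congr 1
      · apply Finset.prod_congr rfl
        intro i hi
        have : i ∉ S := by
          rw [← h, Finset.mem_sdiff]
          exact fun h' => h'.2 hi
        simp [this]
      · apply Finset.prod_congr rfl
        intro i hi
        have hiJ : i ∉ J := (Finset.mem_sdiff.mp hi).2
        have : i ∉ T \ S := by
          intro h'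
          rw [Finset.mem_sdiff] at h'
          apply h'.2
          rw [← h, Finset.mem_sdiff]
          exact ⟨h'.1, hiJ⟩
        rw [if_neg this]
    · symm
      have hne : ∃ i, (i ∈ S ∧ i ∈ J) ∨ (i ∈ T ∧ i ∉ J ∧ i ∉ S) := by
        by_contra hcon
        push Not at hcon
        apply h
        ext i
        rw [Finset.mem_sdiff]
        constructor
        · rintro ⟨hT, hJ⟩
          exact (hcon i).2 hT hJ
        · intro hS
          exact ⟨hST hS, (hcon i).1 hS⟩
      obtain ⟨i, hi | hi⟩ := hne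
      · have : ∏ i ∈ J, (if i ∈ S then (0 : ℝ) else t) = 0 :=
          Finset.prod_eq_zero hi.2 (by simp [hi.1])
        rw [this, zero_mul]
      · have : ∏ i ∈ univ \ J, (if i ∈ T \ S then (0 : ℝ) else 1 - t) = 0 :=
          Finset.prod_eq_zero (Finset.mem_sdiff.mpr ⟨Finset.mem_univ i, hi.2.1⟩)
            (by simp [hi.1, hi.2.2])
        rw [this, mul_zero]
  simp_rw [h1]
  rw [sum_prod (fun i => if i ∈ S then 0 else t) (fun i => if i ∈ T \ S then 0 else 1 - t)]
  have h2 : ∀ i : Fin n, ((if i ∈ S then 0 else t) + (if i ∈ T \ S then 0 else 1 - t))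
      = (if i ∈ S then (1 - t) else 1) * (if i ∈ T \ S then t else 1) := by
    intro i
    by_cases hS : i ∈ S
    · simp [hS]
    · by_cases hT : i ∈ T
      · simp [hS, hT]
      · simp [hS, hT]
  simp_rw [h2]
  rw [Finset.prod_mul_distrib]
  congr 1
  · rw [Finset.prod_ite_mem, Finset.univ_inter, Finset.prod_const]
  · rw [Finset.prod_ite_mem, Finset.univ_inter, Finset.prod_const]

/-- the restricted function -/
def fJ (f : (Fin n → Bool) → ℝ) (J : Finset (Fin n)) (x : Fin n → Bool) : ℝ :=
  f (fun i => if i ∈ J then true else x i)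

theorem chi_restrict (T J : Finset (Fin n)) (x : Fin n → Bool) :
    chi T (fun i => if i ∈ J then true else x i) = chi (T \ J) x := by
  unfold chi
  have h1 : ∏ i ∈ T, sgn (if i ∈ J then true else x i)
      = (∏ i ∈ T \ J, sgn (if i ∈ J then true else x i))
        * ∏ i ∈ T ∩ J, sgn (if i ∈ J then true else x i) := by
    rw [← Finset.prod_union (Finset.disjoint_left.mpr (by
      intro i h1 h2
      exact (Finset.mem_sdiff.mp h1).2 (Finset.mem_inter.mp h2).2))]
    congr 1
    exact (Finset.sdiff_union_inter T J).symm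
  rw [h1]
  have h2 : ∏ i ∈ T ∩ J, sgn (if i ∈ J then true else x i) = 1 := by
    apply Finset.prod_eq_one
    intro i hi
    simp [(Finset.mem_inter.mp hi).2, sgn]
  rw [h2, mul_one]
  apply Finset.prod_congr rfl
  intro i hi
  simp [(Finset.mem_sdiff.mp hi).2]

theorem fhat_fJ (f : (Fin n → Bool) → ℝ) (J S : Finset (Fin n)) :
    fhat (fJ f J) S = ∑ T : Finset (Fin n), if T \ J = S then fhat f T else 0 := by
  apply fhat_of_expand (fJ f J) (fun S => ∑ T : Finset (Fin n), if T \ J = S then fhat f T else 0)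
  intro x
  unfold fJ
  rw [expand f]
  simp_rw [chi_restrict, Finset.sum_mul]
  rw [Finset.sum_comm]
  apply Finset.sum_congr rfl
  intro T _
  simp

theorem fJ_bool {f : (Fin n → Bool) → ℝ} (hf : IsBoolean f) (J : Finset (Fin n)) :
    IsBoolean (fJ f J) := fun _ => hf _

theorem fJ_deg {f : (Fin n → Bool) → ℝ} {d : ℕ} (hd : DegLE f d) (J : Finset (Fin n)) :
    DegLE (fJ f J) d := by
  intro S hS
  rw [fhat_fJ]
  apply Finset.sum_eq_zero
  intro T _
  split_ifs with h
  · apply hd
    refine lt_of_lt_of_le hS ?_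
    rw [← h]
    exact Finset.card_le_card Finset.sdiff_subset
  · rfl

theorem avg_fhat (f : (Fin n → Bool) → ℝ) (t : ℝ) (S : Finset (Fin n)) :
    ∑ J : Finset (Fin n), pw t J * fhat (fJ f J) S
      = ∑ T : Finset (Fin n), if S ⊆ T then fhat f T * ((1 - t) ^ S.card * t ^ (T \ S).card)
        else 0 := by
  simp_rw [fhat_fJ, Finset.mul_sum]
  rw [Finset.sum_comm]
  apply Finset.sum_congr rfl
  intro T _
  split_ifs with h
  · rw [← prob_eq t T S h, Finset.mul_sum]
    apply Finset.sum_congr rfl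
    intro J _
    split_ifs <;> ring
  · apply Finset.sum_eq_zero
    intro J _
    have : ¬ T \ J = S := by
      intro h'
      apply h
      rw [← h']
      exact Finset.sdiff_subset
    simp [this]

theorem avg_empty (f : (Fin n → Bool) → ℝ) (t : ℝ) :
    ∑ J : Finset (Fin n), pw t J * fhat (fJ f J) ∅ = (G f).eval t := by
  rw [avg_fhat, G_eval_sum]
  apply Finset.sum_congr rfl
  intro T _
  simp

theorem avg_single (f : (Fin n → Bool) → ℝ) (t : ℝ) :
    ∑ J : Finset (Fin n), pw t J * ∑ i, fhat (fJ f J) {i}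
      = (1 - t) * (derivative (G f)).eval t := by
  have h1 : (derivative (G f)).eval t
      = ∑ T : Finset (Fin n), fhat f T * (T.card * t ^ (T.card - 1)) := by
    simp [G, derivative_sum, eval_finsetSum, derivative_X_pow]
  rw [h1]
  simp_rw [Finset.mul_sum]
  rw [Finset.sum_comm]
  simp_rw [avg_fhat]
  rw [Finset.sum_comm]
  apply Finset.sum_congr rfl
  intro T _
  have h2 : ∀ i : Fin n, (if ({i} : Finset (Fin n)) ⊆ T then
      fhat f T * ((1 - t) ^ ({i} : Finset (Fin n)).card * t ^ (T \ {i}).card) else 0)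
      = if i ∈ T then fhat f T * ((1 - t) * t ^ (T.card - 1)) else 0 := by
    intro i
    by_cases hi : i ∈ T
    · have h3 : ({i} : Finset (Fin n)) ⊆ T := Finset.singleton_subset_iff.mpr hi
      have h4 : (T \ {i}).card = T.card - 1 := by
        rw [Finset.card_sdiff_of_subset h3, Finset.card_singleton]
      simp [h3, hi, h4]
    · have h3 : ¬ ({i} : Finset (Fin n)) ⊆ T := fun h => hi (Finset.singleton_subset_iff.mp h)
      simp [hi]
  simp_rw [h2]
  rw [Finset.sum_ite_mem, Finset.univ_inter, Finset.sum_const, nsmul_eq_mul]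
  ring

/-- random restriction: fix each coordinate to `true` with probability `t`
(average over `J : Finset (Fin n)` with weight `t^|J| (1-t)^(n-|J|)` of `level_one_le` for
`fJ x = f (fun i => if i ∈ J then true else x i)`, with Jensen for the square) -/
theorem diff_ineq {f : (Fin n → Bool) → ℝ} (hf : IsBoolean f) {d : ℕ} (hd : DegLE f d)
    {t : ℝ} (h0 : 0 ≤ t) (h1 : t ≤ 1) :
    (1 - t) * (derivative (G f)).eval t ≤ d * (1 - (G f).eval t ^ 2) := by
  rw [← avg_single, ← avg_empty]
  have hJ : ∀ J : Finset (Fin n), pw t J * ∑ i, fhat (fJ f J) {i}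
      ≤ pw t J * (d * (1 - fhat (fJ f J) ∅ ^ 2)) := fun J =>
    mul_le_mul_of_nonneg_left (level_one_le (fJ_bool hf J) (fJ_deg hd J)) (pw_nonneg h0 h1 J)
  refine le_trans (Finset.sum_le_sum fun J _ => hJ J) ?_
  set a : Finset (Fin n) → ℝ := fun J => fhat (fJ f J) ∅ with ha
  have h2 : ∑ J : Finset (Fin n), pw t J * (d * (1 - a J ^ 2))
      = d * (1 - ∑ J : Finset (Fin n), pw t J * a J ^ 2) := by
    have e1 : ∀ J : Finset (Fin n), pw t J * (d * (1 - a J ^ 2))
        = d * pw t J - d * (pw t J * a J ^ 2) := by intro J; ring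
    simp_rw [e1]
    rw [Finset.sum_sub_distrib, ← Finset.mul_sum, ← Finset.mul_sum, sum_pw]
    ring
  have h3 : (∑ J : Finset (Fin n), pw t J * a J) ^ 2 ≤ ∑ J : Finset (Fin n), pw t J * a J ^ 2 := by
    have h4 : 0 ≤ ∑ J : Finset (Fin n), pw t J * (a J - ∑ J, pw t J * a J) ^ 2 :=
      Finset.sum_nonneg fun J _ => mul_nonneg (pw_nonneg h0 h1 J) (sq_nonneg _)
    set m := ∑ J : Finset (Fin n), pw t J * a J with hm
    have h5 : ∑ J : Finset (Fin n), pw t J * (a J - m) ^ 2
        = ∑ J : Finset (Fin n), pw t J * a J ^ 2 - 2 * m * m + m ^ 2 * 1 := by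
      have e1 : ∀ J : Finset (Fin n), pw t J * (a J - m) ^ 2
          = pw t J * a J ^ 2 - 2 * m * (pw t J * a J) + m ^ 2 * pw t J := by intro J; ring
      simp_rw [e1]
      rw [Finset.sum_add_distrib, Finset.sum_sub_distrib, ← Finset.mul_sum, ← Finset.mul_sum,
        sum_pw]
    rw [h5] at h4
    nlinarith
  rw [h2]
  have hd0 : (0 : ℝ) ≤ d := Nat.cast_nonneg d
  exact mul_le_mul_of_nonneg_left (by linarith) hd0

end P047
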