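import Mathlib
import Vale.Agent.P047.Defs

namespace P047

open Finset

theorem d_mul_th (d k : ℕ) (hd : 1 ≤ d) : (d : ℝ) * th d k = k * Real.pi + Real.pi / 2 := by
  have : (d : ℝ) ≠ 0 := by
    have : 0 < d := hd
    positivity
  unfold th
  field_simp

theorem sin_d_th (d k : ℕ) (hd : 1 ≤ d) : Real.sin (d * th d k) = (-1) ^ k := by
  rw [d_mul_th d k hd, Real.sin_add_pi_div_two, Real.cos_nat_mul_pi]

theorem cos_d_th (d k : ℕ) (hd : 1 ≤ d) : Real.cos (d * th d k) = 0 := by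
  rw [d_mul_th d k hd, Real.cos_add_pi_div_two, Real.sin_nat_mul_pi, neg_zero]

/-- orthogonality: `sin (d θ_k) = (-1)^k` -/
theorem sum_sin_zero (d : ℕ) (hd : 1 ≤ d) (m : ℕ) (hm : m < d) :
    ∑ k ∈ range (2 * d), (-1) ^ k * Real.sin (m * th d k) = 0 := by
  have hd0 : (0 : ℝ) < d := by exact_mod_cast hd
  set c : ℝ := Real.cos (m * (Real.pi / (2 * d))) with hc
  have hmd : (m : ℝ) < d := by exact_mod_cast hm
  have hcpos : 0 < c := by
    apply Real.cos_pos_of_mem_Ioo
    have h0 : 0 ≤ (m : ℝ) * (Real.pi / (2 * d)) := by positivity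
    have h1 : (m : ℝ) * (Real.pi / (2 * d)) < Real.pi / 2 := by
      have e : Real.pi / 2 = d * (Real.pi / (2 * d)) := by field_simp
      rw [e]
      exact mul_lt_mul_of_pos_right hmd (by positivity)
    constructor
    · linarith [Real.pi_pos]
    · exact h1
  set a : ℕ → ℝ := fun k => (-1) ^ k * Real.sin (m * (k * Real.pi / d)) with ha
  have hterm : ∀ k, 2 * c * ((-1) ^ k * Real.sin (m * th d k)) = a k - a (k + 1) := by
    intro k
    have e1 : (m : ℝ) * (k * Real.pi / d) = m * th d k - m * (Real.pi / (2 * d)) := by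
      unfold th; field_simp; ring
    have e2 : (m : ℝ) * (((k + 1 : ℕ) : ℝ) * Real.pi / d) = m * th d k + m * (Real.pi / (2 * d)) := by
      unfold th; push_cast; field_simp; ring
    simp only [ha]
    rw [e1, e2, Real.sin_sub, Real.sin_add, pow_succ, hc]
    ring
  have hsum : 2 * c * ∑ k ∈ range (2 * d), (-1) ^ k * Real.sin (m * th d k) = 0 := by
    rw [Finset.mul_sum, Finset.sum_congr rfl fun k _ => hterm k, Finset.sum_range_sub']
    have h0 : a 0 = 0 := by simp [ha]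
    have h1 : a (2 * d) = 0 := by
      simp only [ha]
      have e : (m : ℝ) * (((2 * d : ℕ) : ℝ) * Real.pi / d) = ((2 * m : ℕ) : ℝ) * Real.pi := by
        push_cast; field_simp
      rw [e, Real.sin_nat_mul_pi, mul_zero]
    rw [h0, h1, sub_zero]
  rcases mul_eq_zero.mp hsum with h | h
  · exfalso; linarith
  · exact h

theorem sin_half_ne (d k : ℕ) (hd : 1 ≤ d) (hk : k < 2 * d) : Real.sin (th d k / 2) ≠ 0 := by
  have hd0 : (0 : ℝ) < d := by exact_mod_cast hd
  have hk' : (k : ℝ) + 1 ≤ 2 * d := by exact_mod_cast hk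
  apply ne_of_gt
  apply Real.sin_pos_of_pos_of_lt_pi
  · unfold th; positivity
  · unfold th
    have hpi := Real.pi_pos
    rw [div_div, div_lt_iff₀ (by positivity)]
    nlinarith

theorem wt_mul (d k : ℕ) (hd : 1 ≤ d) (hk : k < 2 * d) :
    wt d k * (2 - 2 * Real.cos (th d k)) = 1 / d := by
  have hd0 : (0 : ℝ) < d := by exact_mod_cast hd
  have hs := sin_half_ne d k hd hk
  have e : Real.cos (th d k) = 1 - 2 * Real.sin (th d k / 2) ^ 2 := by
    have h1 : Real.cos (th d k) = Real.cos (2 * (th d k / 2)) := by ring_nf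
    rw [h1, Real.cos_two_mul, Real.cos_sq']
    ring
  rw [e]
  unfold wt
  field_simp
  ring

/-- the sums of the interpolation formula -/
noncomputable def AA (d : ℕ) (m : ℕ) : ℝ :=
  ∑ k ∈ range (2 * d), (-1) ^ k * wt d k * Real.sin (m * th d k)

theorem AA_zero (d : ℕ) : AA d 0 = 0 := by
  unfold AA
  apply Finset.sum_eq_zero
  intro k _
  simp

theorem AA_rec (d : ℕ) (hd : 1 ≤ d) (m : ℕ) :
    AA d (m + 2) + AA d m - 2 * AA d (m + 1)
      = -(1 / d * ∑ k ∈ range (2 * d), (-1) ^ k * Real.sin ((m + 1 : ℕ) * th d k)) := by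
  unfold AA
  rw [Finset.mul_sum, ← Finset.sum_add_distrib, Finset.mul_sum, ← Finset.sum_sub_distrib,
    ← Finset.sum_neg_distrib]
  refine Finset.sum_congr rfl fun k hk => ?_
  have hw := wt_mul d k hd (Finset.mem_range.mp hk)
  have e1 : ((m + 2 : ℕ) : ℝ) * th d k = (m + 1 : ℕ) * th d k + th d k := by push_cast; ring
  have e2 : (m : ℝ) * th d k = (m + 1 : ℕ) * th d k - th d k := by push_cast; ring
  rw [e1, e2, Real.sin_add, Real.sin_sub, ← hw]
  ring

theorem AA_linear (d : ℕ) (hd : 1 ≤ d) : ∀ m, m + 1 ≤ d → AA d (m + 1) - AA d m = AA d 1 := by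
  intro m
  induction m with
  | zero => intro _; rw [AA_zero, sub_zero]
  | succ m ih =>
    intro hm
    have h1 := ih (by omega)
    have h2 := AA_rec d hd m
    rw [sum_sin_zero d hd (m + 1) (by omega)] at h2
    linarith

theorem AA_mul (d : ℕ) (hd : 1 ≤ d) : ∀ m, m ≤ d → AA d m = m * AA d 1 := by
  intro m
  induction m with
  | zero => intro _; rw [AA_zero]; simp
  | succ m ih =>
    intro hm
    have h1 := ih (by omega)
    have h2 := AA_linear d hd m hm
    push_cast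
    linarith

theorem AA_one (d : ℕ) (hd : 1 ≤ d) : AA d 1 = 1 := by
  obtain ⟨e, rfl⟩ : ∃ e, d = e + 1 := ⟨d - 1, by omega⟩
  have h1 := AA_rec (e + 1) hd e
  have h2 : AA (e + 1) (e + 2) = AA (e + 1) e := by
    unfold AA
    refine Finset.sum_congr rfl fun k hk => ?_
    have e1 : ((e + 2 : ℕ) : ℝ) * th (e + 1) k = (e + 1 : ℕ) * th (e + 1) k + th (e + 1) k := by
      push_cast; ring
    have e2 : (e : ℝ) * th (e + 1) k = (e + 1 : ℕ) * th (e + 1) k - th (e + 1) k := by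
      push_cast; ring
    rw [e1, e2, Real.sin_add, Real.sin_sub, cos_d_th _ _ hd]
    ring
  have h3 : ∑ k ∈ range (2 * (e + 1)), (-1 : ℝ) ^ k * Real.sin ((e + 1 : ℕ) * th (e + 1) k)
      = 2 * (e + 1 : ℕ) := by
    have h4 : ∀ k ∈ range (2 * (e + 1)),
        (-1 : ℝ) ^ k * Real.sin ((e + 1 : ℕ) * th (e + 1) k) = 1 := by
      intro k _
      rw [sin_d_th _ _ hd, ← mul_pow]
      simp
    rw [Finset.sum_congr rfl h4]
    simp
  have h5 := AA_linear (e + 1) hd e le_rfl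
  rw [h3, h2] at h1
  have h6 : (1 : ℝ) / ((e + 1 : ℕ) : ℝ) * (2 * ((e + 1 : ℕ) : ℝ)) = 2 := by
    have : ((e + 1 : ℕ) : ℝ) ≠ 0 := by positivity
    field_simp
  rw [h6] at h1
  linarith

/-- Hint: the second difference in `m` is `-(1/d) ∑ (-1)^k sin (m θ_k)`,
and `sin ((d+1) θ_k) = sin ((d-1) θ_k)` gives the slope. -/
theorem riesz_sin (d : ℕ) (hd : 1 ≤ d) (m : ℕ) (hm : m ≤ d) :
    ∑ k ∈ range (2 * d), (-1) ^ k * wt d k * Real.sin (m * th d k) = m := by
  have h := AA_mul d hd m hm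
  rw [AA_one d hd, mul_one] at h
  exact h

theorem th_reflect (d k : ℕ) (hd : 1 ≤ d) (hk : k < 2 * d) :
    th d (2 * d - 1 - k) = 2 * Real.pi - th d k := by
  have hd0 : (0 : ℝ) < d := by exact_mod_cast hd
  have h1 : ((2 * d - 1 - k : ℕ) : ℝ) = 2 * d - 1 - k := by
    have h2 : 2 * d - 1 - k + k + 1 = 2 * d := by omega
    have h3 : ((2 * d - 1 - k : ℕ) : ℝ) + k + 1 = 2 * d := by exact_mod_cast h2
    linarith
  unfold th
  rw [h1]
  field_simp
  ring

/-- symmetry `k ↦ 2d - 1 - k` -/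
theorem riesz_cos (d : ℕ) (hd : 1 ≤ d) (m : ℕ) :
    ∑ k ∈ range (2 * d), (-1) ^ k * wt d k * Real.cos (m * th d k) = 0 := by
  have h := Finset.sum_range_reflect (fun k => (-1 : ℝ) ^ k * wt d k * Real.cos (m * th d k)) (2 * d)
  have h2 : ∑ k ∈ range (2 * d), (-1 : ℝ) ^ (2 * d - 1 - k) * wt d (2 * d - 1 - k)
      * Real.cos (m * th d (2 * d - 1 - k))
      = - ∑ k ∈ range (2 * d), (-1 : ℝ) ^ k * wt d k * Real.cos (m * th d k) := by
    rw [← Finset.sum_neg_distrib]
    refine Finset.sum_congr rfl fun k hk => ?_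
    have hk' := Finset.mem_range.mp hk
    have e1 := th_reflect d k hd hk'
    have e2 : Real.cos (m * (2 * Real.pi - th d k)) = Real.cos (m * th d k) := by
      have e3 : (m : ℝ) * (2 * Real.pi - th d k) = m * (2 * Real.pi) - m * th d k := by ring
      rw [e3, Real.cos_nat_mul_two_pi_sub]
    have e4 : wt d (2 * d - 1 - k) = wt d k := by
      unfold wt
      rw [e1]
      have e5 : (2 * Real.pi - th d k) / 2 = Real.pi - th d k / 2 := by ring
      rw [e5, Real.sin_pi_sub]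
    have e6 : (-1 : ℝ) ^ (2 * d - 1 - k) = -(-1 : ℝ) ^ k := by
      have h7 : (-1 : ℝ) ^ (2 * d - 1 - k) * (-1 : ℝ) ^ (k + 1) = 1 := by
        rw [← pow_add]
        have : 2 * d - 1 - k + (k + 1) = 2 * d := by omega
        rw [this, pow_mul]
        simp
      have h8 : (-1 : ℝ) ^ (k + 1) * (-1 : ℝ) ^ (k + 1) = 1 := by
        rw [← mul_pow]; simp
      have h9 : (-1 : ℝ) ^ (2 * d - 1 - k) = (-1 : ℝ) ^ (k + 1) := by
        have : (-1 : ℝ) ^ (2 * d - 1 - k) * ((-1 : ℝ) ^ (k + 1) * (-1 : ℝ) ^ (k + 1))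
            = (-1 : ℝ) ^ (k + 1) := by rw [← mul_assoc, h7, one_mul]
        rw [h8, mul_one] at this
        exact this
      rw [h9, pow_succ]
      ring
    rw [e1, e2, e4, e6]
    ring
  rw [h2] at h
  linarith

theorem sum_wt (d : ℕ) (hd : 1 ≤ d) : ∑ k ∈ range (2 * d), wt d k = d := by
  have h := riesz_sin d hd d le_rfl
  rw [← h]
  refine Finset.sum_congr rfl fun k _ => ?_
  rw [sin_d_th d k hd]
  have h8 : (-1 : ℝ) ^ k * (-1 : ℝ) ^ k = 1 := by
    rw [← mul_pow]; simp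
  calc wt d k = wt d k * ((-1 : ℝ) ^ k * (-1 : ℝ) ^ k) := by rw [h8, mul_one]
    _ = (-1) ^ k * wt d k * (-1) ^ k := by ring

end P047
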