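import Mathlib
import Vale.Agent.P047.Riesz1

namespace P047

open Finset Polynomial

/-- trigonometric polynomials of degree at most `d` -/
noncomputable def TP (d : ℕ) : Submodule ℝ (ℝ → ℝ) :=
  Submodule.span ℝ {F | ∃ m : ℕ, m ≤ d ∧
    (F = (fun x => Real.sin (m * x)) ∨ F = (fun x => Real.cos (m * x)))}

theorem TP_sin {d m : ℕ} (h : m ≤ d) : (fun x : ℝ => Real.sin (m * x)) ∈ TP d :=
  Submodule.subset_span ⟨m, h, Or.inl rfl⟩

theorem TP_cos {d m : ℕ} (h : m ≤ d) : (fun x : ℝ => Real.cos (m * x)) ∈ TP d :=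
  Submodule.subset_span ⟨m, h, Or.inr rfl⟩

theorem TP_mono {d e : ℕ} (h : d ≤ e) : TP d ≤ TP e := by
  apply Submodule.span_mono
  rintro F ⟨m, hm, hF⟩
  exact ⟨m, hm.trans h, hF⟩

theorem TP_mul_sin {d : ℕ} {F : ℝ → ℝ} (hF : F ∈ TP d) :
    (fun x => Real.sin x * F x) ∈ TP (d + 1) := by
  induction hF using Submodule.span_induction with
  | mem F h =>
    obtain ⟨m, hm, h⟩ := h
    rcases Nat.eq_zero_or_pos m with rfl | hpos
    · rcases h with rfl | rfl
      · have e : (fun x : ℝ => Real.sin x * Real.sin (((0 : ℕ) : ℝ) * x)) = 0 := by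
          ext x
          simp
        rw [e]
        exact Submodule.zero_mem _
      · have e : (fun x : ℝ => Real.sin x * Real.cos (((0 : ℕ) : ℝ) * x))
            = fun x => Real.sin (((1 : ℕ) : ℝ) * x) := by
          ext x
          simp
        rw [e]
        exact TP_sin (by omega)
    · obtain ⟨j, rfl⟩ : ∃ j, m = j + 1 := ⟨m - 1, by omega⟩
      rcases h with rfl | rfl
      · have e : (fun x : ℝ => Real.sin x * Real.sin (((j + 1 : ℕ) : ℝ) * x))
            = (1 / 2 : ℝ) • (fun x : ℝ => Real.cos ((j : ℝ) * x))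
              + (-(1 / 2) : ℝ) • (fun x : ℝ => Real.cos (((j + 2 : ℕ) : ℝ) * x)) := by
          ext x
          simp only [Pi.add_apply, Pi.smul_apply, smul_eq_mul]
          have h1 : (j : ℝ) * x = ((j + 1 : ℕ) : ℝ) * x - x := by push_cast; ring
          have h2 : ((j + 2 : ℕ) : ℝ) * x = ((j + 1 : ℕ) : ℝ) * x + x := by push_cast; ring
          rw [h1, h2, Real.cos_sub, Real.cos_add]
          ring
        rw [e]
        exact Submodule.add_mem _ (Submodule.smul_mem _ _ (TP_cos (by omega)))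
          (Submodule.smul_mem _ _ (TP_cos (by omega)))
      · have e : (fun x : ℝ => Real.sin x * Real.cos (((j + 1 : ℕ) : ℝ) * x))
            = (1 / 2 : ℝ) • (fun x : ℝ => Real.sin (((j + 2 : ℕ) : ℝ) * x))
              + (-(1 / 2) : ℝ) • (fun x : ℝ => Real.sin ((j : ℝ) * x)) := by
          ext x
          simp only [Pi.add_apply, Pi.smul_apply, smul_eq_mul]
          have h1 : (j : ℝ) * x = ((j + 1 : ℕ) : ℝ) * x - x := by push_cast; ring
          have h2 : ((j + 2 : ℕ) : ℝ) * x = ((j + 1 : ℕ) : ℝ) * x + x := by push_cast; ring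
          rw [h1, h2, Real.sin_sub, Real.sin_add]
          ring
        rw [e]
        exact Submodule.add_mem _ (Submodule.smul_mem _ _ (TP_sin (by omega)))
          (Submodule.smul_mem _ _ (TP_sin (by omega)))
  | zero =>
    have e : (fun x : ℝ => Real.sin x * (0 : ℝ → ℝ) x) = 0 := by
      ext x
      simp
    rw [e]
    exact Submodule.zero_mem _
  | add F G _ _ h1 h2 =>
    have e : (fun x : ℝ => Real.sin x * (F + G) x)
        = (fun x => Real.sin x * F x) + fun x => Real.sin x * G x := by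
      ext x
      simp only [Pi.add_apply]
      ring
    rw [e]
    exact Submodule.add_mem _ h1 h2
  | smul a F _ h1 =>
    have e : (fun x : ℝ => Real.sin x * (a • F) x) = a • (fun x => Real.sin x * F x) := by
      ext x
      simp only [Pi.smul_apply, smul_eq_mul]
      ring
    rw [e]
    exact Submodule.smul_mem _ _ h1

theorem TP_sin_pow (j : ℕ) : (fun x : ℝ => Real.sin x ^ j) ∈ TP j := by
  induction j with
  | zero =>
    have e : (fun x : ℝ => Real.sin x ^ 0) = fun x => Real.cos (((0 : ℕ) : ℝ) * x) := by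
      ext x
      simp
    rw [e]
    exact TP_cos le_rfl
  | succ j ih =>
    have e : (fun x : ℝ => Real.sin x ^ (j + 1)) = fun x => Real.sin x * Real.sin x ^ j := by
      ext x
      ring
    rw [e]
    exact TP_mul_sin ih

theorem TP_poly {d : ℕ} (p : ℝ[X]) (hp : p.natDegree ≤ d) :
    (fun x : ℝ => p.eval (Real.sin x)) ∈ TP d := by
  have e : (fun x : ℝ => p.eval (Real.sin x))
      = ∑ j ∈ range (p.natDegree + 1), p.coeff j • (fun x : ℝ => Real.sin x ^ j) := by
    ext x
    rw [eval_eq_sum_range, Finset.sum_apply]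
    rfl
  rw [e]
  refine Submodule.sum_mem _ fun j hj => Submodule.smul_mem _ _ (TP_mono ?_ (TP_sin_pow j))
  rw [Finset.mem_range] at hj
  omega

theorem TP_deriv {d : ℕ} (hd : 1 ≤ d) {F : ℝ → ℝ} (hF : F ∈ TP d) :
    HasDerivAt F (∑ k ∈ range (2 * d), (-1) ^ k * wt d k * F (th d k)) 0 := by
  induction hF using Submodule.span_induction with
  | mem F h =>
    obtain ⟨m, hm, rfl | rfl⟩ := h
    · rw [riesz_sin d hd m hm]
      have h1 : HasDerivAt (fun x : ℝ => (m : ℝ) * x) (m : ℝ) 0 := by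
        simpa using (hasDerivAt_id (0 : ℝ)).const_mul (m : ℝ)
      have h2 := h1.sin
      simpa using h2
    · rw [riesz_cos d hd m]
      have h1 : HasDerivAt (fun x : ℝ => (m : ℝ) * x) (m : ℝ) 0 := by
        simpa using (hasDerivAt_id (0 : ℝ)).const_mul (m : ℝ)
      have h2 := h1.cos
      simpa using h2
  | zero =>
    have e : ∑ k ∈ range (2 * d), (-1) ^ k * wt d k * (0 : ℝ → ℝ) (th d k) = 0 := by simp
    rw [e]
    exact hasDerivAt_const (0 : ℝ) (0 : ℝ)
  | add F G _ _ h1 h2 =>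
    have e : ∑ k ∈ range (2 * d), (-1) ^ k * wt d k * (F + G) (th d k)
        = ∑ k ∈ range (2 * d), (-1) ^ k * wt d k * F (th d k)
          + ∑ k ∈ range (2 * d), (-1) ^ k * wt d k * G (th d k) := by
      rw [← Finset.sum_add_distrib]
      refine Finset.sum_congr rfl fun k _ => ?_
      rw [Pi.add_apply]
      ring
    rw [e]
    exact h1.add h2
  | smul a F _ h1 =>
    have e : ∑ k ∈ range (2 * d), (-1) ^ k * wt d k * (a • F) (th d k)
        = a * ∑ k ∈ range (2 * d), (-1) ^ k * wt d k * F (th d k) := by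
      rw [Finset.mul_sum]
      refine Finset.sum_congr rfl fun k _ => ?_
      rw [Pi.smul_apply, smul_eq_mul]
      ring
    rw [e]
    exact h1.const_mul a

/-- `p (sin θ)` is a trigonometric polynomial of degree `≤ d` -/
theorem riesz_poly (d : ℕ) (hd : 1 ≤ d) (p : ℝ[X]) (hp : p.natDegree ≤ d) :
    (derivative p).eval 0 = ∑ k ∈ range (2 * d), (-1) ^ k * wt d k * p.eval (Real.sin (th d k)) := by
  have h1 := TP_deriv hd (TP_poly p hp)
  have h2 : HasDerivAt (fun x : ℝ => p.eval (Real.sin x))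
      ((derivative p).eval (Real.sin 0) * Real.cos 0) 0 :=
    (p.hasDerivAt (Real.sin 0)).comp 0 (Real.hasDerivAt_sin 0)
  have h3 := h2.unique h1
  rw [← h3]
  simp

theorem wt_nonneg (d k : ℕ) : 0 ≤ wt d k := by
  unfold wt
  positivity

theorem riesz_bound (d : ℕ) (hd : 1 ≤ d) (p : ℝ[X]) (hp : p.natDegree ≤ d)
    (hb : ∀ t : ℝ, -1 ≤ t → t ≤ 1 → |p.eval t| ≤ 1) :
    (derivative p).eval 0 ≤ d - 4 * d / Real.pi ^ 2 *
      (2 - (p.eval (Real.sin (Real.pi / (2 * d))) - p.eval (-Real.sin (Real.pi / (2 * d))))) := by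
  obtain ⟨e, rfl⟩ : ∃ e, d = e + 1 := ⟨d - 1, by omega⟩
  have hd0 : (0 : ℝ) < ((e + 1 : ℕ) : ℝ) := by positivity
  have hpi := Real.pi_pos
  set D : ℝ := ((e + 1 : ℕ) : ℝ) with hD
  set s := Real.sin (Real.pi / (2 * D)) with hs
  have hbs : ∀ x : ℝ, |p.eval (Real.sin x)| ≤ 1 := fun x =>
    hb _ (Real.neg_one_le_sin x) (Real.sin_le_one x)
  have hps : |p.eval s| ≤ 1 := hbs _
  have hpns : |p.eval (-s)| ≤ 1 := by
    have := hbs (-(Real.pi / (2 * D)))
    rwa [Real.sin_neg] at this
  rw [riesz_poly (e + 1) hd p hp]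
  have hsw := sum_wt (e + 1) hd
  have hN : 2 * (e + 1) = 2 * e + 1 + 1 := by ring
  rw [hN, Finset.sum_range_succ, Finset.sum_range_succ'] at hsw ⊢
  have hth0 : th (e + 1) 0 = Real.pi / (2 * D) := by
    unfold th
    simp [hD]
  have hthl : th (e + 1) (2 * e + 1) = 2 * Real.pi - Real.pi / (2 * D) := by
    unfold th
    rw [← hD]
    have : ((2 * e + 1 : ℕ) : ℝ) = 2 * D - 1 := by
      rw [hD]; push_cast; ring
    rw [this]
    field_simp
    ring
  have hsl : Real.sin (th (e + 1) (2 * e + 1)) = -s := by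
    rw [hthl, Real.sin_two_pi_sub]
  have hw : wt (e + 1) (2 * e + 1) = wt (e + 1) 0 := by
    unfold wt
    rw [hthl, hth0]
    have : (2 * Real.pi - Real.pi / (2 * D)) / 2 = Real.pi - Real.pi / (2 * D) / 2 := by ring
    rw [this, Real.sin_pi_sub]
  have hsign : ((-1 : ℝ)) ^ (2 * e + 1) = -1 := by
    rw [pow_succ, pow_mul]
    norm_num
  rw [hsl, hw, hsign, hth0, ← hs, pow_zero, one_mul]
  rw [hw] at hsw
  -- middle terms
  have hmid : ∑ k ∈ range (2 * e), (-1 : ℝ) ^ (k + 1) * wt (e + 1) (k + 1)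
        * p.eval (Real.sin (th (e + 1) (k + 1)))
      ≤ ∑ k ∈ range (2 * e), wt (e + 1) (k + 1) := by
    refine Finset.sum_le_sum fun k _ => ?_
    have h1 := hbs (th (e + 1) (k + 1))
    have h2 := wt_nonneg (e + 1) (k + 1)
    have h3 : |(-1 : ℝ) ^ (k + 1) * wt (e + 1) (k + 1)
        * p.eval (Real.sin (th (e + 1) (k + 1)))| ≤ wt (e + 1) (k + 1) := by
      rw [abs_mul, abs_mul, abs_pow, abs_neg, abs_one, one_pow, one_mul, abs_of_nonneg h2]
      exact mul_le_of_le_one_right h2 h1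
    exact (le_abs_self _).trans h3
  have hw0 : 4 * D / Real.pi ^ 2 ≤ wt (e + 1) 0 := by
    unfold wt
    rw [hth0, ← hD]
    have hx0 : 0 < Real.pi / (2 * D) / 2 := by positivity
    have hD1 : 1 ≤ D := by
      rw [hD]
      exact_mod_cast hd
    have hxpi : Real.pi / (2 * D) / 2 < Real.pi := by
      rw [div_div, div_lt_iff₀ (by positivity)]
      nlinarith
    have hsinpos : 0 < Real.sin (Real.pi / (2 * D) / 2) := Real.sin_pos_of_pos_of_lt_pi hx0 hxpi
    have hsin : Real.sin (Real.pi / (2 * D) / 2) ≤ Real.pi / (2 * D) / 2 := Real.sin_le hx0.le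
    have hsq : Real.sin (Real.pi / (2 * D) / 2) ^ 2 ≤ (Real.pi / (2 * D) / 2) ^ 2 :=
      pow_le_pow_left₀ hsinpos.le hsin 2
    have h5 : 1 / (4 * D * (Real.pi / (2 * D) / 2) ^ 2)
        ≤ 1 / (4 * D * Real.sin (Real.pi / (2 * D) / 2) ^ 2) := by
      apply one_div_le_one_div_of_le
      · positivity
      · exact mul_le_mul_of_nonneg_left hsq (by positivity)
    refine le_trans (le_of_eq ?_) h5
    field_simp
    ring
  have h2 : 0 ≤ 2 - (p.eval s - p.eval (-s)) := by
    have a1 := (abs_le.mp hps).2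
    have a2 := (abs_le.mp hpns).1
    linarith
  have h3 := mul_le_mul_of_nonneg_right hw0 h2
  linarith

end P047
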