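import Mathlib
import Vale.Agent.P047.Restrict
import Vale.Agent.P047.Riesz2
import Vale.Agent.P047.ODE

namespace P047

open Finset Polynomial

variable {n : ℕ}

lemma G_natDegree {f : (Fin n → Bool) → ℝ} {d : ℕ} (hd : DegLE f d) : (G f).natDegree ≤ d := by
  unfold G
  apply Polynomial.natDegree_sum_le_of_forall_le
  intro S _
  rcases Nat.lt_or_ge d S.card with h | h
  · rw [hd S h]; simp
  · exact (Polynomial.natDegree_C_mul_X_pow_le _ _).trans h

lemma G_deriv_zero (f : (Fin n → Bool) → ℝ) :
    (derivative (G f)).eval 0 = ∑ i, fhat f {i} := by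
  have h1 : (derivative (G f)).eval 0
      = ∑ S : Finset (Fin n), fhat f S * (S.card * 0 ^ (S.card - 1)) := by
    unfold G
    rw [Polynomial.derivative_sum, Polynomial.eval_finsetSum]
    refine Finset.sum_congr rfl fun S _ => ?_
    rw [Polynomial.derivative_C_mul_X_pow]
    simp [mul_assoc]
  rw [h1]
  have h2 : ∑ i : Fin n, fhat f {i} = ∑ S ∈ (univ : Finset (Fin n)).image (fun i => ({i} : Finset (Fin n))),
      fhat f S * (S.card * 0 ^ (S.card - 1)) := by
    rw [Finset.sum_image (fun i _ j _ h => Finset.singleton_injective h)]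
    simp
  rw [h2]
  symm
  apply Finset.sum_subset (Finset.subset_univ _)
  intro S _ hS
  rcases Nat.lt_trichotomy S.card 1 with h | h | h
  · have : S.card = 0 := by omega
    rw [this]; simp
  · obtain ⟨i, hi⟩ := Finset.card_eq_one.1 h
    exact absurd (Finset.mem_image.2 ⟨i, Finset.mem_univ i, hi.symm⟩) hS
  · have : S.card - 1 ≠ 0 := by omega
    rw [zero_pow this]; simp

/-- product weights -/
lemma sum_weight (t : ℝ) : ∑ x : Fin n → Bool, ∏ i, ((1 + sgn (x i) * t) / 2) = 1 := by
  have h1 : ∑ x : Fin n → Bool, ∏ i, ((1 + sgn (x i) * t) / 2)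
      = ∏ i : Fin n, ∑ b : Bool, ((1 + sgn b * t) / 2) := by
    rw [Finset.prod_univ_sum, Fintype.piFinset_univ]
  rw [h1]
  apply Finset.prod_eq_one
  intro i _
  simp [sgn]
  ring

lemma weight_pos {t : ℝ} (h1 : -1 < t) (h2 : t < 1) (x : Fin n → Bool) :
    0 < ∏ i, ((1 + sgn (x i) * t) / 2) := by
  apply Finset.prod_pos
  intro i _
  cases x i <;> simp [sgn] <;> linarith

lemma weight_nonneg {t : ℝ} (h1 : -1 ≤ t) (h2 : t ≤ 1) (x : Fin n → Bool) :
    0 ≤ ∏ i, ((1 + sgn (x i) * t) / 2) := by
  apply Finset.prod_nonneg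
  intro i _
  cases x i <;> simp [sgn] <;> linarith

lemma G_abs_le {f : (Fin n → Bool) → ℝ} (hf : IsBoolean f) {t : ℝ} (h1 : -1 ≤ t) (h2 : t ≤ 1) :
    |(G f).eval t| ≤ 1 := by
  rw [G_eval]
  refine (Finset.abs_sum_le_sum_abs _ _).trans (le_trans ?_ (sum_weight (n := n) t).le)
  apply Finset.sum_le_sum
  intro x _
  rw [abs_mul, abs_of_nonneg (weight_nonneg h1 h2 x)]
  rcases hf x with h | h <;> rw [h] <;> simp

lemma G_abs_lt {f : (Fin n → Bool) → ℝ} (hf : IsBoolean f) {x0 x1 : Fin n → Bool}
    (hx0 : f x0 = 1) (hx1 : f x1 = -1) {t : ℝ} (h1 : -1 < t) (h2 : t < 1) :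
    |(G f).eval t| < 1 := by
  rw [G_eval, abs_lt]
  constructor
  · have h3 : 0 < ∑ x, (1 + f x) * ∏ i, ((1 + sgn (x i) * t) / 2) := by
      apply Finset.sum_pos' _ ⟨x0, Finset.mem_univ _, _⟩
      · intro x _
        apply mul_nonneg _ (weight_pos h1 h2 x).le
        rcases hf x with h | h <;> rw [h] <;> norm_num
      · rw [hx0]
        exact mul_pos (by norm_num) (weight_pos h1 h2 x0)
    simp only [add_mul, one_mul, Finset.sum_add_distrib, sum_weight] at h3
    linarith
  · have h3 : 0 < ∑ x, (1 - f x) * ∏ i, ((1 + sgn (x i) * t) / 2) := by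
      apply Finset.sum_pos' _ ⟨x1, Finset.mem_univ _, _⟩
      · intro x _
        apply mul_nonneg _ (weight_pos h1 h2 x).le
        rcases hf x with h | h <;> rw [h] <;> norm_num
      · rw [hx1]
        exact mul_pos (by norm_num) (weight_pos h1 h2 x1)
    simp only [sub_mul, one_mul, Finset.sum_sub_distrib, sum_weight] at h3
    linarith

/-- the reflected function -/
def refl (f : (Fin n → Bool) → ℝ) : (Fin n → Bool) → ℝ := fun x => - f (fun i => !(x i))

lemma chi_neg (S : Finset (Fin n)) (x : Fin n → Bool) :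
    chi S (fun i => !(x i)) = (-1) ^ S.card * chi S x := by
  unfold chi
  rw [← Finset.prod_const, ← Finset.prod_mul_distrib]
  exact Finset.prod_congr rfl fun i _ => by rw [sgn_not]; ring

lemma fhat_refl (f : (Fin n → Bool) → ℝ) (S : Finset (Fin n)) :
    fhat (refl f) S = -((-1) ^ S.card * fhat f S) := by
  apply fhat_of_expand (refl f) (fun S => -((-1) ^ S.card * fhat f S))
  intro x
  unfold refl
  rw [expand f, ← Finset.sum_neg_distrib]
  exact Finset.sum_congr rfl fun S _ => by rw [chi_neg]; ring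

lemma G_refl (f : (Fin n → Bool) → ℝ) : G (refl f) = - (G f).comp (-X) := by
  apply Polynomial.funext
  intro t
  rw [G_eval_sum, Polynomial.eval_neg, Polynomial.eval_comp, G_eval_sum, ← Finset.sum_neg_distrib]
  refine Finset.sum_congr rfl fun S _ => ?_
  rw [fhat_refl, Polynomial.eval_neg, Polynomial.eval_X, neg_pow t]
  ring

lemma diff_ineq_neg {f : (Fin n → Bool) → ℝ} (hf : IsBoolean f) {d : ℕ} (hd : DegLE f d)
    {t : ℝ} (h0 : 0 ≤ t) (h1 : t ≤ 1) :
    (1 - t) * (derivative (G f)).eval (-t) ≤ d * (1 - (G f).eval (-t) ^ 2) := by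
  have hf' : IsBoolean (refl f) := by
    intro x
    unfold refl
    rcases hf (fun i => !(x i)) with h | h <;> rw [h] <;> norm_num
  have hd' : DegLE (refl f) d := by
    intro S hS
    rw [fhat_refl, hd S hS]; simp
  have h := diff_ineq hf' hd' h0 h1
  rw [G_refl] at h
  simp only [Polynomial.derivative_neg, Polynomial.derivative_comp, Polynomial.eval_neg,
    Polynomial.eval_mul, Polynomial.eval_comp, Polynomial.derivative_X, Polynomial.eval_X,
    Polynomial.eval_one] at h
  nlinarith

/-- bound before simplification -/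
theorem main_raw {f : (Fin n → Bool) → ℝ} (hf : IsBoolean f) {d : ℕ} (hd2 : 2 ≤ d)
    (hd : DegLE f d) {x0 x1 : Fin n → Bool} (hx0 : f x0 = 1) (hx1 : f x1 = -1) :
    ∑ i, fhat f {i} ≤ d - 4 * d / Real.pi ^ 2 *
      (4 * (1 - Real.sin (Real.pi / (2 * d))) ^ (2 * d)
        / (1 + (1 - Real.sin (Real.pi / (2 * d))) ^ (2 * d))) := by
  have hdr : (2 : ℝ) ≤ d := by exact_mod_cast hd2
  have hpi := Real.pi_pos
  have hx : Real.pi / (2 * d) < Real.pi / 2 := by
    apply div_lt_div_of_pos_left hpi (by norm_num)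
    linarith
  have hx' : 0 < Real.pi / (2 * d) := by positivity
  have ht0 : 0 ≤ Real.sin (Real.pi / (2 * d)) :=
    Real.sin_nonneg_of_nonneg_of_le_pi hx'.le (by linarith)
  have ht1 : Real.sin (Real.pi / (2 * d)) < 1 := by
    have := Real.sin_lt_sin_of_lt_of_le_pi_div_two (by linarith) le_rfl hx
    rwa [Real.sin_pi_div_two] at this
  have h1 := riesz_bound d (by omega) (G f) (G_natDegree hd) (fun t a b => G_abs_le hf a b)
  have h2 := ode_bound d (G f) (fun t a b => G_abs_lt hf hx0 hx1 a b)
    (fun t a b => diff_ineq hf hd a b) (fun t a b => diff_ineq_neg hf hd a b)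
    (Real.sin (Real.pi / (2 * d))) ht0 ht1
  rw [G_deriv_zero] at h1
  refine h1.trans ?_
  have h3 : 0 ≤ 4 * d / Real.pi ^ 2 := by positivity
  have h4 := mul_le_mul_of_nonneg_left h2 h3
  linarith

/-- closed form -/
theorem main_bound {f : (Fin n → Bool) → ℝ} (hf : IsBoolean f) {d : ℕ} (hd2 : 2 ≤ d)
    (hd : DegLE f d) :
    ∑ i, fhat f {i} ≤ d * (1 - (16 / Real.pi ^ 2) /
      (Real.exp (2 * Real.pi * d / (2 * d - Real.pi)) + 1)) := by
  have hdr : (2 : ℝ) ≤ d := by exact_mod_cast hd2
  have hpi := Real.pi_pos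
  have hpi3 := Real.pi_gt_three
  have hpi4 : Real.pi < 3.15 := Real.pi_lt_d2
  have hden : 0 < 2 * (d : ℝ) - Real.pi := by linarith
  by_cases hc : ∃ x0 x1, f x0 = 1 ∧ f x1 = -1
  · obtain ⟨x0, x1, hx0, hx1⟩ := hc
    refine (main_raw hf hd2 hd hx0 hx1).trans ?_
    set ρ := (1 - Real.sin (Real.pi / (2 * d))) ^ (2 * d) with hρ
    set E := Real.exp (2 * Real.pi * d / (2 * d - Real.pi)) with hE
    have hEpos : 0 < E := Real.exp_pos _
    have hx1' : Real.pi / (2 * d) < 1 := by
      rw [div_lt_one (by positivity)]; linarith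
    have hsin : Real.sin (Real.pi / (2 * d)) ≤ Real.pi / (2 * d) := Real.sin_le (by positivity)
    have hlog : -(Real.pi / (2 * d)) / (1 - Real.pi / (2 * d)) ≤ Real.log (1 - Real.pi / (2 * d)) := by
      have h := Real.one_sub_inv_le_log_of_pos (by linarith : 0 < 1 - Real.pi / (2 * d))
      refine le_trans (le_of_eq ?_) h
      have : 1 - Real.pi / (2 * d) ≠ 0 := by linarith
      field_simp
      ring
    have hρE : E⁻¹ ≤ ρ := by
      have e1 : E⁻¹ = Real.exp ((2 * d : ℕ) * (-(Real.pi / (2 * d)) / (1 - Real.pi / (2 * d)))) := by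
        rw [hE, ← Real.exp_neg]
        congr 1
        push_cast
        have a1 : (d : ℝ) ≠ 0 := by positivity
        have a2 : 2 * (d : ℝ) - Real.pi ≠ 0 := hden.ne'
        have a3 : 1 - Real.pi / (2 * d) ≠ 0 := by linarith
        have a4 : 1 - Real.pi / (2 * d) = (2 * d - Real.pi) / (2 * d) := by field_simp
        rw [a4]
        field_simp
      rw [e1]
      calc Real.exp ((2 * d : ℕ) * (-(Real.pi / (2 * d)) / (1 - Real.pi / (2 * d))))
          ≤ Real.exp ((2 * d : ℕ) * Real.log (1 - Real.pi / (2 * d))) := by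
            apply Real.exp_le_exp.2
            exact mul_le_mul_of_nonneg_left hlog (Nat.cast_nonneg _)
        _ = (1 - Real.pi / (2 * d)) ^ (2 * d) := by
            rw [Real.exp_nat_mul, Real.exp_log (by linarith)]
        _ ≤ ρ := by
            rw [hρ]
            exact pow_le_pow_left₀ (by linarith) (by linarith) _
    have hρpos : 0 < ρ := lt_of_lt_of_le (inv_pos.2 hEpos) hρE
    have h5 : 4 / (E + 1) ≤ 4 * ρ / (1 + ρ) := by
      rw [div_le_div_iff₀ (by positivity) (by positivity)]
      have : 1 ≤ E * ρ := by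
        have := mul_le_mul_of_nonneg_left hρE hEpos.le
        rwa [mul_inv_cancel₀ hEpos.ne'] at this
      nlinarith
    have h6 : 0 ≤ 4 * (d : ℝ) / Real.pi ^ 2 := by positivity
    have h7 := mul_le_mul_of_nonneg_left h5 h6
    have h8 : (d : ℝ) * (1 - 16 / Real.pi ^ 2 / (E + 1)) = d - 4 * d / Real.pi ^ 2 * (4 / (E + 1)) := by
      have : E + 1 ≠ 0 := by positivity
      field_simp
      ring
    rw [h8]
    linarith
  · -- constant function
    have h0 : ∑ i, fhat f {i} ≤ 0 := by
      have hconst : ∃ c : ℝ, ∀ x, f x = c := by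
        rcases hf (fun _ => true) with h | h
        · refine ⟨1, fun x => ?_⟩
          rcases hf x with h' | h'
          · exact h'
          · exact absurd ⟨_, _, h, h'⟩ hc
        · refine ⟨-1, fun x => ?_⟩
          rcases hf x with h' | h'
          · exact absurd ⟨_, _, h', h⟩ hc
          · exact h'
      obtain ⟨c, hc'⟩ := hconst
      have : ∀ i : Fin n, fhat f {i} = 0 := by
        intro i
        rw [fhat_of_expand f (fun S => if S = ∅ then c else 0)]
        · simp
        · intro x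
          rw [hc' x]
          simp [chi]
      rw [Finset.sum_eq_zero fun i _ => this i]
    refine h0.trans ?_
    have hE : 1 ≤ Real.exp (2 * Real.pi * d / (2 * d - Real.pi)) := by
      apply Real.one_le_exp
      positivity
    apply mul_nonneg (by positivity)
    rw [sub_nonneg, div_le_one (by positivity), div_le_iff₀ (by positivity)]
    nlinarith

end P047
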