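import Mathlib
import Vale.Agent.P047.Final

namespace P047

open Finset Polynomial Filter Topology

lemma exp_le_aux {d : ℕ} (hd : 100 ≤ d) :
    Real.exp (2 * Real.pi * d / (2 * d - Real.pi)) ≤ 24.54 := by
  have hdr : (100 : ℝ) ≤ d := by exact_mod_cast hd
  have hpi3 := Real.pi_gt_three
  have hpi4 : Real.pi < 3.1416 := Real.pi_lt_d4
  have hden : 0 < 2 * (d : ℝ) - Real.pi := by linarith
  have h1 : 2 * Real.pi * d / (2 * d - Real.pi) ≤ 3.2 := by
    rw [div_le_iff₀ hden]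
    nlinarith
  have h2 : Real.exp 0.2 ≤ 1.2215 := by
    have h3 : Real.exp 0.2 ^ 5 ≤ (1.2215 : ℝ) ^ 5 := by
      rw [← Real.exp_nat_mul]
      have e : ((5 : ℕ) : ℝ) * 0.2 = 1 := by norm_num
      rw [e]
      have := Real.exp_one_lt_d9
      norm_num at this ⊢
      linarith
    exact le_of_pow_le_pow_left₀ (by norm_num) (by norm_num) h3
  have h4 : Real.exp 3.2 ≤ 24.54 := by
    have e : (3.2 : ℝ) = ((3 : ℕ) : ℝ) * 1 + 0.2 := by norm_num
    rw [e, Real.exp_add, Real.exp_nat_mul]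
    have h5 := Real.exp_one_lt_d9
    have h6 : Real.exp 1 ^ 3 ≤ (2.7182818286 : ℝ) ^ 3 :=
      pow_le_pow_left₀ (Real.exp_pos 1).le h5.le 3
    calc Real.exp 1 ^ 3 * Real.exp 0.2 ≤ (2.7182818286 : ℝ) ^ 3 * 1.2215 :=
          mul_le_mul h6 h2 (Real.exp_pos _).le (by positivity)
      _ ≤ 24.54 := by norm_num
  exact (Real.exp_le_exp.2 h1).trans h4

lemma const_le_aux {d : ℕ} (hd : 100 ≤ d) :
    1 - (16 / Real.pi ^ 2) / (Real.exp (2 * Real.pi * d / (2 * d - Real.pi)) + 1) ≤ 0.937 := by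
  have h := exp_le_aux hd
  have hpi3 := Real.pi_gt_three
  have hpi4 : Real.pi < 3.1416 := Real.pi_lt_d4
  have hE := Real.exp_pos (2 * Real.pi * d / (2 * d - Real.pi))
  have h1 : 0.063 ≤ (16 / Real.pi ^ 2) / (Real.exp (2 * Real.pi * d / (2 * d - Real.pi)) + 1) := by
    rw [le_div_iff₀ (by positivity), le_div_iff₀ (by positivity)]
    have h2 : Real.pi ^ 2 ≤ 3.1416 ^ 2 := pow_le_pow_left₀ (by linarith) hpi4.le 2
    calc 0.063 * (Real.exp (2 * Real.pi * d / (2 * d - Real.pi)) + 1) * Real.pi ^ 2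
        ≤ 0.063 * (24.54 + 1) * 3.1416 ^ 2 := by
          apply mul_le_mul _ h2 (by positivity) (by norm_num)
          linarith
      _ ≤ 16 := by norm_num
  linarith

lemma const_tendsto : Tendsto (fun d : ℕ =>
    1 - (16 / Real.pi ^ 2) / (Real.exp (2 * Real.pi * d / (2 * d - Real.pi)) + 1)) atTop
    (𝓝 (1 - (16 / Real.pi ^ 2) / (Real.exp Real.pi + 1))) := by
  have h1 : Tendsto (fun d : ℕ => 2 * Real.pi * (d : ℝ) / (2 * d - Real.pi)) atTop (𝓝 Real.pi) := by
    have h2 : Tendsto (fun d : ℕ => Real.pi / (1 - (Real.pi / 2) / (d : ℝ))) atTop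
        (𝓝 (Real.pi / (1 - 0))) := by
      apply Tendsto.div tendsto_const_nhds
      · exact tendsto_const_nhds.sub (tendsto_const_div_atTop_nhds_zero_nat _)
      · norm_num
    rw [sub_zero, div_one] at h2
    refine h2.congr' ?_
    filter_upwards [eventually_ge_atTop 2] with d hd
    have hdr : (2 : ℝ) ≤ d := by exact_mod_cast hd
    have hpi4 : Real.pi < 3.15 := Real.pi_lt_d2
    have hden : 2 * (d : ℝ) - Real.pi ≠ 0 := by linarith
    have hd0 : (d : ℝ) ≠ 0 := by linarith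
    have e : 1 - (Real.pi / 2) / (d : ℝ) = (2 * d - Real.pi) / (2 * d) := by field_simp
    rw [e]
    field_simp
  have h3 : Real.exp Real.pi + 1 ≠ 0 := by positivity
  exact tendsto_const_nhds.sub (tendsto_const_nhds.div
    (((Real.continuous_exp.tendsto _).comp h1).add tendsto_const_nhds) h3)

lemma const_lt_one {d : ℕ} (hd : 2 ≤ d) :
    1 - (16 / Real.pi ^ 2) / (Real.exp (2 * Real.pi * d / (2 * d - Real.pi)) + 1) < 1 := by
  have := Real.pi_pos
  have : 0 < (16 / Real.pi ^ 2) / (Real.exp (2 * Real.pi * d / (2 * d - Real.pi)) + 1) := by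
    positivity
  linarith

end P047
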