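import Mathlib
import Vale.Agent.P047.Defs

/-! P047: the quantity `M(d)`. -/

namespace P047

/-- the values of `∑ fhat({i})` over all `n ≥ 1` and all Boolean functions of degree at most `d` -/
def vals (d : ℕ) : Set ℝ :=
  {s | ∃ (n : ℕ) (f : (Fin n → Bool) → ℝ), 1 ≤ n ∧ IsBoolean f ∧ DegLE f d ∧
    s = ∑ i, fhat f {i}}

/-- the quantity `M(d)` of the problem -/
noncomputable def M (d : ℕ) : ℝ := sSup (vals d)

end P047
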