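import Mathlib
import Vale.Agent.P047.Fourier

namespace P047

open Finset

variable {n : ℕ}

/-- the reflected function, as `refl` but in a light file -/
def refl' (f : (Fin n → Bool) → ℝ) : (Fin n → Bool) → ℝ := fun x => - f (fun i => !(x i))

lemma chi_neg' (S : Finset (Fin n)) (x : Fin n → Bool) :
    chi S (fun i => !(x i)) = (-1) ^ S.card * chi S x := by
  unfold chi
  rw [← Finset.prod_const, ← Finset.prod_mul_distrib]
  exact Finset.prod_congr rfl fun i _ => by rw [sgn_not]; ring

lemma fhat_refl' (f : (Fin n → Bool) → ℝ) (S : Finset (Fin n)) :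
    fhat (refl' f) S = -((-1) ^ S.card * fhat f S) := by
  apply fhat_of_expand (refl' f) (fun S => -((-1) ^ S.card * fhat f S))
  intro x
  unfold refl'
  rw [expand f, ← Finset.sum_neg_distrib]
  exact Finset.sum_congr rfl fun S _ => by rw [chi_neg']; ring

lemma sum_chi (U : Finset (Fin n)) :
    ∑ s : Fin n → Bool, chi U s = if U = ∅ then 2 ^ n else 0 := by
  rw [← sum_chi_mul U ∅]
  exact Finset.sum_congr rfl fun x _ => by simp [chi]

/-- choice of the signs of the inner biases -/
theorem exists_sign (f : (Fin n → Bool) → ℝ) (μ : ℝ) : ∃ s : Fin n → Bool,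
    ∑ i, fhat f {i} ≤ ∑ i, ∑ S ∈ univ.filter (fun S : Finset (Fin n) => i ∈ S),
      fhat f S * ∏ j ∈ S.erase i, (sgn (s j) * μ) := by
  by_contra hcon
  push Not at hcon
  have h1 : ∑ s : Fin n → Bool, ∑ i, ∑ S ∈ univ.filter (fun S : Finset (Fin n) => i ∈ S),
      fhat f S * ∏ j ∈ S.erase i, (sgn (s j) * μ) < ∑ s : Fin n → Bool, ∑ i, fhat f {i} :=
    Finset.sum_lt_sum_of_nonempty Finset.univ_nonempty fun s _ => hcon s
  have h2 : ∑ s : Fin n → Bool, ∑ i, ∑ S ∈ univ.filter (fun S : Finset (Fin n) => i ∈ S),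
      fhat f S * ∏ j ∈ S.erase i, (sgn (s j) * μ) = ∑ i, fhat f {i} * 2 ^ n := by
    rw [Finset.sum_comm]
    refine Finset.sum_congr rfl fun i _ => ?_
    rw [Finset.sum_comm]
    have h3 : ∀ S ∈ univ.filter (fun S : Finset (Fin n) => i ∈ S),
        ∑ s : Fin n → Bool, fhat f S * ∏ j ∈ S.erase i, (sgn (s j) * μ)
          = if S = {i} then fhat f {i} * 2 ^ n else 0 := by
      intro S hS
      have hiS : i ∈ S := (Finset.mem_filter.1 hS).2
      have h4 : ∀ s : Fin n → Bool, fhat f S * ∏ j ∈ S.erase i, (sgn (s j) * μ)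
          = fhat f S * μ ^ (S.erase i).card * chi (S.erase i) s := by
        intro s
        rw [Finset.prod_mul_distrib, Finset.prod_const, chi]
        ring
      rw [Finset.sum_congr rfl fun s _ => h4 s, ← Finset.mul_sum, sum_chi]
      by_cases h5 : S = {i}
      · subst h5
        simp
      · have h6 : S.erase i ≠ ∅ := by
          intro h7
          apply h5
          rw [← Finset.insert_erase hiS, h7]
          simp
        simp [h5, h6]
    rw [Finset.sum_congr rfl h3]
    simp
  rw [h2] at h1
  simp only [Finset.sum_const, Finset.card_univ, Fintype.card_fun, Fintype.card_bool,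
    Fintype.card_fin, nsmul_eq_mul] at h1
  rw [← Finset.sum_mul] at h1
  push_cast at h1
  linarith

end P047
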