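import Mathlib
import Vale.Agent.P047.CompB
import Vale.Agent.P047.Refl
import Vale.Agent.P047.MDef

namespace P047

open Finset

variable {n m : ℕ}

theorem super {d1 d2 : ℕ} {f : (Fin n → Bool) → ℝ} {h : (Fin m → Bool) → ℝ}
    (hf : IsBoolean f) (hfd : DegLE f d1) (hh : IsBoolean h) (hhd : DegLE h d2)
    (hpos : 0 ≤ ∑ j, fhat h {j}) :
    ∃ F : (Fin (n * m) → Bool) → ℝ, IsBoolean F ∧ DegLE F (d1 * d2) ∧
      (∑ i, fhat f {i}) * (∑ j, fhat h {j}) ≤ ∑ k, fhat F {k} := by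
  obtain ⟨s, hs⟩ := exists_sign f (fhat h ∅)
  set h' : Fin n → (Fin m → Bool) → ℝ := fun i => if s i then h else refl' h with hh'
  have hb : ∀ i, IsBoolean (h' i) := by
    intro i x
    simp only [hh']
    cases s i
    · simp only [Bool.false_eq_true, if_false]
      unfold refl'
      rcases hh (fun i => !(x i)) with a | a <;> rw [a] <;> norm_num
    · simpa using hh x
  have hd : ∀ i, DegLE (h' i) d2 := by
    intro i S hS
    simp only [hh']
    cases s i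
    · simp only [Bool.false_eq_true, if_false]
      rw [fhat_refl', hhd S hS]; simp
    · simpa using hhd S hS
  have h0 : ∀ i, fhat (h' i) ∅ = sgn (s i) * fhat h ∅ := by
    intro i
    simp only [hh']
    cases s i
    · simp only [Bool.false_eq_true, if_false]
      rw [fhat_refl']; simp [sgn]
    · simp [sgn]
  have h1 : ∀ i, ∑ j, fhat (h' i) {j} = ∑ j, fhat h {j} := by
    intro i
    simp only [hh']
    cases s i
    · simp only [Bool.false_eq_true, if_false]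
      exact Finset.sum_congr rfl fun j _ => by rw [fhat_refl']; simp
    · simp
  refine ⟨comp f h', comp_bool hf h', comp_deg hfd hb hd, ?_⟩
  rw [comp_level_one f h' hb]
  simp only [h1, h0]
  rw [← Finset.sum_mul]
  exact mul_le_mul_of_nonneg_right hs hpos

theorem zero_mem_vals (d : ℕ) : (0 : ℝ) ∈ vals d := by
  have hexp : ∀ S : Finset (Fin 1), fhat (fun _ : Fin 1 → Bool => (1 : ℝ)) S
      = if S = ∅ then 1 else 0 := by
    apply fhat_of_expand
    intro x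
    simp [chi]
  refine ⟨1, fun _ => 1, le_rfl, fun _ => Or.inl rfl, ?_, ?_⟩
  · intro S hS
    rw [hexp]
    have : S ≠ ∅ := by
      rintro rfl
      simp at hS
    simp [this]
  · simp [hexp]

theorem one_mem_vals {d : ℕ} (hd : 1 ≤ d) : (1 : ℝ) ∈ vals d := by
  have hexp : ∀ S : Finset (Fin 1), fhat (fun x : Fin 1 → Bool => sgn (x 0)) S
      = if S = {0} then 1 else 0 := by
    apply fhat_of_expand
    intro x
    simp [chi]
  refine ⟨1, fun x => sgn (x 0), le_rfl, fun x => ?_, ?_, ?_⟩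
  · change sgn (x 0) = 1 ∨ sgn (x 0) = -1
    cases x 0 <;> simp [sgn]
  · intro S hS
    rw [hexp]
    have : S ≠ {0} := by
      rintro rfl
      simp at hS
      omega
    simp [this]
  · simp [hexp]

theorem vals_le_d (d : ℕ) : ∀ s ∈ vals d, s ≤ d := by
  rintro s ⟨n, f, _, hf, hdeg, rfl⟩
  refine (level_one_le hf hdeg).trans ?_
  have h0 : (0 : ℝ) ≤ d := Nat.cast_nonneg d
  nlinarith [mul_nonneg h0 (sq_nonneg (fhat f ∅))]

theorem bdd_vals (d : ℕ) : BddAbove (vals d) := ⟨d, vals_le_d d⟩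

theorem M_nonneg (d : ℕ) : 0 ≤ M d := le_csSup (bdd_vals d) (zero_mem_vals d)

theorem one_le_M {d : ℕ} (hd : 1 ≤ d) : 1 ≤ M d := le_csSup (bdd_vals d) (one_mem_vals hd)

theorem M_le (d : ℕ) : M d ≤ d := csSup_le ⟨0, zero_mem_vals d⟩ (vals_le_d d)

theorem M_mono {d e : ℕ} (h : d ≤ e) : M d ≤ M e := by
  apply csSup_le_csSup (bdd_vals e) ⟨0, zero_mem_vals d⟩
  rintro s ⟨n, f, hn, hf, hdeg, rfl⟩
  exact ⟨n, f, hn, hf, fun S hS => hdeg S (lt_of_le_of_lt h hS), rfl⟩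

/-- supermultiplicativity -/
theorem M_mul_le {d1 d2 : ℕ} (h2 : 1 ≤ d2) : M d1 * M d2 ≤ M (d1 * d2) := by
  have hM2 : 0 < M d2 := lt_of_lt_of_le one_pos (one_le_M h2)
  rw [← le_div_iff₀ hM2]
  apply csSup_le ⟨0, zero_mem_vals d1⟩
  rintro s1 ⟨n, f, hn, hf, hfd, rfl⟩
  rw [le_div_iff₀ hM2]
  rcases le_or_gt (∑ i, fhat f {i}) 0 with h0 | h0
  · exact (mul_nonpos_of_nonpos_of_nonneg h0 hM2.le).trans (M_nonneg _)
  · rw [mul_comm, ← le_div_iff₀ h0]
    apply csSup_le ⟨0, zero_mem_vals d2⟩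
    rintro s2 ⟨m, h, hm, hh, hhd, rfl⟩
    rcases le_or_gt 0 (∑ j, fhat h {j}) with h3 | h3
    · rw [le_div_iff₀ h0, mul_comm]
      obtain ⟨F, hF, hFd, hle⟩ := super hf hfd hh hhd h3
      exact hle.trans (le_csSup (bdd_vals _) ⟨n * m, F, Nat.mul_pos hn hm, hF, hFd, rfl⟩)
    · exact h3.le.trans (div_nonneg (M_nonneg _) h0.le)

theorem M_pow_le {d : ℕ} (hd : 1 ≤ d) (k : ℕ) : M d ^ k ≤ M (d ^ k) := by
  induction k with
  | zero => simpa using one_le_M le_rfl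
  | succ k ih =>
    rw [pow_succ, pow_succ]
    calc M d ^ k * M d ≤ M (d ^ k) * M d := mul_le_mul_of_nonneg_right ih (M_nonneg d)
      _ ≤ M (d ^ k * d) := M_mul_le hd

/-- dichotomy for every exponent -/
theorem dichotomy (α : ℝ) : (∀ d : ℕ, 1 ≤ d → M d ≤ (d : ℝ) ^ α) ∨
    ∃ β, α < β ∧ ∃ c, 0 < c ∧ ∀ d : ℕ, 1 ≤ d → c * (d : ℝ) ^ β ≤ M d := by
  by_cases hall : ∀ d : ℕ, 1 ≤ d → M d ≤ (d : ℝ) ^ α
  · exact Or.inl hall
  right
  push Not at hall
  obtain ⟨d0, hd0, hlt⟩ := hall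
  have hne : d0 ≠ 1 := by
    rintro rfl
    have := M_le 1
    simp at hlt this
    linarith
  have hd2 : 2 ≤ d0 := by omega
  have hb : (1 : ℝ) < d0 := by
    have : (2 : ℝ) ≤ d0 := by exact_mod_cast hd2
    linarith
  have hM1 : 1 ≤ M d0 := one_le_M hd0
  have hM0 : 0 < M d0 := by linarith
  set β := Real.logb d0 (M d0) with hβ
  have hpow : (d0 : ℝ) ^ β = M d0 := Real.rpow_logb (by linarith) hb.ne' hM0
  have hβ0 : 0 ≤ β := Real.logb_nonneg hb hM1
  refine ⟨β, (Real.lt_logb_iff_rpow_lt hb hM0).2 hlt, (M d0)⁻¹, inv_pos.2 hM0, fun d hd => ?_⟩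
  set k := Nat.log d0 d with hk
  have hk1 : d0 ^ k ≤ d := Nat.pow_log_le_self d0 (by omega)
  have hk2 : d < d0 ^ (k + 1) := Nat.lt_pow_succ_log_self (by omega) d
  have h1 : (d : ℝ) ^ β ≤ M d0 ^ (k + 1) := by
    calc (d : ℝ) ^ β ≤ ((d0 : ℝ) ^ (k + 1)) ^ β := by
          apply Real.rpow_le_rpow (Nat.cast_nonneg d) _ hβ0
          exact_mod_cast hk2.le
      _ = ((d0 : ℝ) ^ β) ^ (k + 1) := by
          rw [← Real.rpow_natCast, ← Real.rpow_natCast, ← Real.rpow_mul (by positivity),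
            ← Real.rpow_mul (by positivity), mul_comm]
      _ = M d0 ^ (k + 1) := by rw [hpow]
  calc (M d0)⁻¹ * (d : ℝ) ^ β ≤ (M d0)⁻¹ * M d0 ^ (k + 1) :=
        mul_le_mul_of_nonneg_left h1 (inv_pos.2 hM0).le
    _ = M d0 ^ k := by
        rw [pow_succ]; field_simp
    _ ≤ M (d0 ^ k) := M_pow_le hd0 k
    _ ≤ M d := M_mono hk1

/-- a bound of order `d^(α+ε)` for every `ε` forces the bound `d^α` with constant one -/
theorem M_le_rpow_of {α : ℝ} (h : ∀ ε : ℝ, 0 < ε → ∃ C : ℝ, ∀ d : ℕ, 1 ≤ d →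
    M d ≤ C * (d : ℝ) ^ (α + ε)) : ∀ d : ℕ, 1 ≤ d → M d ≤ (d : ℝ) ^ α := by
  rcases dichotomy α with h1 | ⟨β, hβ, c, hc, h2⟩
  · exact h1
  · exfalso
    obtain ⟨C, hC⟩ := h ((β - α) / 2) (by linarith)
    have hlim : Filter.Tendsto (fun d : ℕ => (d : ℝ) ^ ((β - α) / 2)) Filter.atTop Filter.atTop :=
      (tendsto_rpow_atTop (by linarith)).comp tendsto_natCast_atTop_atTop
    obtain ⟨d, hd1, hd2⟩ := ((hlim.eventually_gt_atTop (C / c)).and
      (Filter.eventually_ge_atTop 1)).exists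
    have hdpos : (0 : ℝ) < d := by exact_mod_cast hd2
    have e1 := (h2 d hd2).trans (hC d hd2)
    have e2 : (d : ℝ) ^ β = (d : ℝ) ^ ((β - α) / 2) * (d : ℝ) ^ (α + (β - α) / 2) := by
      rw [← Real.rpow_add hdpos]
      congr 1
      ring
    have e3 : 0 < (d : ℝ) ^ (α + (β - α) / 2) := Real.rpow_pos_of_pos hdpos _
    rw [e2, ← mul_assoc] at e1
    have e4 := le_of_mul_le_mul_right e1 e3
    rw [div_lt_iff₀ hc] at hd1
    linarith

end P047
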