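import Mathlib
import Vale.Agent.P047.Super

namespace P047

open Finset Filter Topology

theorem M_pos {d : ℕ} (hd : 1 ≤ d) : 0 < M d := lt_of_lt_of_le one_pos (one_le_M hd)

/-- the growth exponent exists, and bounds `M` with constant one -/
theorem exists_exponent : ∃ γ : ℝ, 0 ≤ γ ∧ γ ≤ 1 ∧
    Tendsto (fun d : ℕ => Real.log (M d) / Real.log d) atTop (𝓝 γ) ∧
    (∀ d : ℕ, 1 ≤ d → M d ≤ (d : ℝ) ^ γ) ∧
    (∀ α : ℝ, (∀ d : ℕ, 1 ≤ d → M d ≤ (d : ℝ) ^ α) ↔ γ ≤ α) := by
  set A : Set ℝ := {α | ∀ d : ℕ, 1 ≤ d → M d ≤ (d : ℝ) ^ α} with hA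
  have h1A : (1 : ℝ) ∈ A := fun d _ => by simpa using M_le d
  have hlb : ∀ α ∈ A, 0 ≤ α := by
    intro α hα
    by_contra hneg
    rw [not_le] at hneg
    have h1 := hα 2 (by norm_num)
    have h2 := one_le_M (d := 2) (by norm_num)
    have h3 : ((2 : ℕ) : ℝ) ^ α < 1 := Real.rpow_lt_one_of_one_lt_of_neg (by norm_num) hneg
    linarith
  have hbdd : BddBelow A := ⟨0, hlb⟩
  set γ := sInf A with hγ
  have hγ0 : 0 ≤ γ := le_csInf ⟨1, h1A⟩ hlb
  have hγ1 : γ ≤ 1 := csInf_le hbdd h1A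
  have hγA : ∀ d : ℕ, 1 ≤ d → M d ≤ (d : ℝ) ^ γ := by
    apply M_le_rpow_of
    intro ε hε
    obtain ⟨α, hα, hlt⟩ := exists_lt_of_csInf_lt ⟨1, h1A⟩ (show sInf A < γ + ε by linarith)
    refine ⟨1, fun d hd => ?_⟩
    rw [one_mul]
    refine (hα d hd).trans ?_
    apply Real.rpow_le_rpow_of_exponent_le _ hlt.le
    exact_mod_cast hd
  have hiff : ∀ α : ℝ, (∀ d : ℕ, 1 ≤ d → M d ≤ (d : ℝ) ^ α) ↔ γ ≤ α := by
    intro α
    constructor
    · intro h
      exact csInf_le hbdd h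
    · intro h d hd
      refine (hγA d hd).trans ?_
      apply Real.rpow_le_rpow_of_exponent_le _ h
      exact_mod_cast hd
  refine ⟨γ, hγ0, hγ1, ?_, hγA, hiff⟩
  have hlog : Tendsto (fun d : ℕ => Real.log d) atTop atTop :=
    Real.tendsto_log_atTop.comp tendsto_natCast_atTop_atTop
  rw [tendsto_order]
  constructor
  · intro a ha
    have hna : ¬ (∀ d : ℕ, 1 ≤ d → M d ≤ (d : ℝ) ^ a) := by
      rw [hiff]; linarith
    rcases dichotomy a with h | ⟨β, hβ, c, hc, h⟩
    · exact absurd h hna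
    have hlim : Tendsto (fun d : ℕ => Real.log c / Real.log d) atTop (𝓝 0) :=
      hlog.const_div_atTop _
    filter_upwards [hlim.eventually (lt_mem_nhds (show a - β < 0 by linarith)),
      eventually_ge_atTop 2] with d h1 h2
    have hd : (1 : ℝ) < d := by
      have : (2 : ℝ) ≤ d := by exact_mod_cast h2
      linarith
    have hl : 0 < Real.log d := Real.log_pos hd
    have h3 := h d (by omega)
    have h4 : Real.log c + β * Real.log d ≤ Real.log (M d) := by
      rw [← Real.log_rpow (by linarith), ← Real.log_mul hc.ne'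
        (Real.rpow_pos_of_pos (by linarith) _).ne']
      exact Real.log_le_log (mul_pos hc (Real.rpow_pos_of_pos (by linarith) _)) h3
    rw [lt_div_iff₀ hl] at h1
    rw [lt_div_iff₀ hl]
    nlinarith
  · intro a ha
    filter_upwards [eventually_ge_atTop 2] with d h2
    have hd : (1 : ℝ) < d := by
      have : (2 : ℝ) ≤ d := by exact_mod_cast h2
      linarith
    have hl : 0 < Real.log d := Real.log_pos hd
    have h3 := Real.log_le_log (M_pos (by omega)) (hγA d (by omega))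
    rw [Real.log_rpow (by linarith)] at h3
    rw [div_lt_iff₀ hl]
    nlinarith

/-- pointwise form of a bound on `M` -/
theorem M_le_iff {d : ℕ} {B : ℝ} (hB : 0 ≤ B) : M d ≤ B ↔
    ∀ (n : ℕ) (f : (Fin n → Bool) → ℝ), IsBoolean f → DegLE f d → ∑ i, fhat f {i} ≤ B := by
  constructor
  · intro h n f hf hd
    rcases Nat.eq_zero_or_pos n with hn | hn
    · subst hn
      simpa using hB
    · exact (le_csSup (bdd_vals d) ⟨n, f, hn, hf, hd, rfl⟩).trans h
  · intro h
    apply csSup_le ⟨0, zero_mem_vals d⟩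
    rintro s ⟨n, f, _, hf, hd, rfl⟩
    exact h n f hf hd

end P047
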